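import Vale.Agent.P078.General.Normal

/-!
# Diagonal amplification of a von Neumann algebra
-/

namespace Vale.Agent.P078.Semifinite

open ComplexInnerProductSpace
open Vale.Agent.P078 Vale.Agent.P078.General

universe u

variable {H : Type u} [NormedAddCommGroup H] [InnerProductSpace ℂ H] [CompleteSpace H]

/-- Square summable families in `H`. -/
abbrev Amp (J : Type u) (H : Type u) [NormedAddCommGroup H] [InnerProductSpace ℂ H] : Type u :=
  lp (fun _ : J => H) 2

variable {J : Type u}

omit [CompleteSpace H] in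
lemma amp_hasSum (v : Amp J H) : HasSum (fun j => ‖v j‖ ^ 2) (‖v‖ ^ 2) := by
  have h := lp.hasSum_norm (p := 2) (by norm_num) v
  simpa using h

omit [CompleteSpace H] in
lemma amp_memℓp {f : J → H} (hf : Summable fun j => ‖f j‖ ^ 2) : Memℓp f 2 :=
  memℓp_gen (by simpa using hf)

omit [CompleteSpace H] in
lemma amp_summable (x : H →L[ℂ] H) (v : Amp J H) : Summable fun j => ‖x (v j)‖ ^ 2 :=
  Summable.of_nonneg_of_le (fun _ => sq_nonneg _)
    (fun j => by
      rw [← mul_pow]
      exact pow_le_pow_left₀ (norm_nonneg _) (x.le_opNorm _) 2)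
    ((amp_hasSum v).summable.mul_left (‖x‖ ^ 2))

/-- The coordinatewise action of an operator, as a linear map. -/
noncomputable def ampLin (x : H →L[ℂ] H) : Amp J H →ₗ[ℂ] Amp J H where
  toFun v := ⟨fun j => x (v j), amp_memℓp (amp_summable x v)⟩
  map_add' v w := lp.ext (funext fun j => by simp; rfl)
  map_smul' c v := lp.ext (funext fun j => by simp)

omit [CompleteSpace H] in
lemma ampLin_bound (x : H →L[ℂ] H) (v : Amp J H) : ‖ampLin x v‖ ≤ ‖x‖ * ‖v‖ := by
  refine (sq_le_sq₀ (norm_nonneg _) (by positivity)).1 ?_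
  rw [mul_pow, ← (amp_hasSum (ampLin x v)).tsum_eq, ← (amp_hasSum v).tsum_eq, ← tsum_mul_left]
  refine (amp_summable x v).tsum_le_tsum (fun j => ?_)
    ((amp_hasSum v).summable.mul_left (‖x‖ ^ 2))
  rw [← mul_pow]
  exact pow_le_pow_left₀ (norm_nonneg _) (x.le_opNorm _) 2

/-- The diagonal amplification of an operator. -/
noncomputable def amp (x : H →L[ℂ] H) : Amp J H →L[ℂ] Amp J H :=
  (ampLin x).mkContinuous ‖x‖ (ampLin_bound x)

omit [CompleteSpace H] in
@[simp]
lemma amp_apply (x : H →L[ℂ] H) (v : Amp J H) (j : J) : amp x v j = x (v j) := rfl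

omit [CompleteSpace H] in
lemma amp_ext {S T : Amp J H →L[ℂ] Amp J H} (h : ∀ v j, S v j = T v j) : S = T :=
  ContinuousLinearMap.ext (fun v => lp.ext (funext (h v)))

omit [CompleteSpace H] in
lemma amp_norm_le (x : H →L[ℂ] H) : ‖(amp x : Amp J H →L[ℂ] Amp J H)‖ ≤ ‖x‖ :=
  LinearMap.mkContinuous_norm_le _ (norm_nonneg _) _

lemma amp_star (x : H →L[ℂ] H) :
    (amp (star x) : Amp J H →L[ℂ] Amp J H) = star (amp x) := by
  rw [ContinuousLinearMap.star_eq_adjoint (amp x), ContinuousLinearMap.eq_adjoint_iff]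
  intro v w
  rw [lp.inner_eq_tsum, lp.inner_eq_tsum]
  refine tsum_congr (fun j => ?_)
  rw [amp_apply, amp_apply, ContinuousLinearMap.star_eq_adjoint,
    ContinuousLinearMap.adjoint_inner_left]

/-- Amplification as a star homomorphism. -/
noncomputable def ampHom : (H →L[ℂ] H) →⋆ₐ[ℂ] (Amp J H →L[ℂ] Amp J H) where
  toFun := amp
  map_one' := amp_ext (fun v j => by simp)
  map_mul' x y := amp_ext (fun v j => by simp)
  map_zero' := amp_ext (fun v j => by simp)
  map_add' x y := amp_ext (fun v j => by simp)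
  commutes' c := amp_ext (fun v j => by simp [Algebra.algebraMap_eq_smul_one])
  map_star' := amp_star

lemma ampHom_apply (x : H →L[ℂ] H) :
    (ampHom (J := J) (H := H)) x = amp x := rfl

open Classical in
/-- Move coordinate `j` to coordinate `i`. -/
noncomputable def unitMap (i j : J) : Amp J H →L[ℂ] Amp J H :=
  (lp.singleContinuousLinearMap ℂ (fun _ : J => H) 2 i).comp
    (lp.evalCLM ℂ (fun _ : J => H) 2 j)

omit [CompleteSpace H] in
open Classical in
lemma unitMap_apply (i j : J) (v : Amp J H) (k : J) :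
    unitMap i j v k = if k = i then v j else 0 := by
  change (lp.single 2 i (v j) : Amp J H) k = _
  split_ifs with h
  · subst h; rw [lp.single_apply_self]
  · rw [lp.single_apply_ne _ _ _ h]

omit [CompleteSpace H] in
lemma amp_norm [Nonempty J] (x : H →L[ℂ] H) : ‖(amp x : Amp J H →L[ℂ] Amp J H)‖ = ‖x‖ := by
  classical
  refine le_antisymm (amp_norm_le x) (ContinuousLinearMap.opNorm_le_bound x (norm_nonneg (amp x : Amp J H →L[ℂ] Amp J H))
    (fun v => ?_))
  obtain ⟨o⟩ := ‹Nonempty J›
  have h1 := lp.norm_apply_le_norm (p := 2) (by norm_num) (amp x (lp.single 2 o v : Amp J H)) o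
  rw [amp_apply, lp.single_apply_self] at h1
  refine h1.trans (((amp x).le_opNorm _).trans (le_of_eq ?_))
  rw [lp.norm_single (by norm_num)]

variable (N : VonNeumannAlgebra H)

/-- Everything in the bicommutant of an amplified algebra is amplified. -/
lemma exists_amp_eq (o : J) {T : Amp J H →L[ℂ] Amp J H}
    (hT : T ∈ Set.centralizer (Set.centralizer
      ((ampHom : _ →⋆ₐ[ℂ] (Amp J H →L[ℂ] Amp J H)) '' (N : Set (H →L[ℂ] H))))) :
    ∃ y ∈ N, amp y = T := by
  classical
  let T0 : H →L[ℂ] H := (lp.evalCLM ℂ (fun _ : J => H) 2 o).comp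
    (T.comp (lp.singleContinuousLinearMap ℂ (fun _ : J => H) 2 o))
  have hE : ∀ i j : J, (unitMap i j : Amp J H →L[ℂ] Amp J H) ∈ Set.centralizer
      ((ampHom : _ →⋆ₐ[ℂ] (Amp J H →L[ℂ] Amp J H)) '' (N : Set (H →L[ℂ] H))) := by
    rintro i j _ ⟨y, -, rfl⟩
    refine amp_ext (fun v k => ?_)
    change amp y (unitMap i j v) k = unitMap i j (amp y v) k
    rw [amp_apply, unitMap_apply, unitMap_apply, amp_apply]
    split_ifs <;> simp
  have hTy : amp T0 = T := by
    refine amp_ext (fun v j => ?_)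
    have h1 := congrArg (fun w : Amp J H => w o) (DFunLike.congr_fun (hT _ (hE o j)) v)
    simp only [mul_apply_eq_comp, unitMap_apply, if_true] at h1
    have h2 : unitMap o j v = (lp.single 2 o (v j) : Amp J H) := rfl
    rw [amp_apply, h1, h2]
    rfl
  refine ⟨T0, mem_vna_of_commute (fun m hm => ?_), hTy⟩
  have hm' : (amp m : Amp J H →L[ℂ] Amp J H) ∈ Set.centralizer
      ((ampHom : _ →⋆ₐ[ℂ] (Amp J H →L[ℂ] Amp J H)) '' (N : Set (H →L[ℂ] H))) := by
    rintro _ ⟨y, hy, rfl⟩
    rw [← ampHom_apply, ← map_mul, ← map_mul, ← commute_of_mem_centralizer hy hm]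
  have h1 := hT _ hm'
  rw [← hTy] at h1
  refine ContinuousLinearMap.ext (fun v => ?_)
  have h2 := congrArg (fun w : Amp J H => w o)
    (DFunLike.congr_fun h1 (lp.single 2 o v : Amp J H))
  simpa [lp.single_apply_self] using h2

/-- The amplified von Neumann algebra. -/
noncomputable def ampVNA (N : VonNeumannAlgebra H) (o : J) : VonNeumannAlgebra (Amp J H) where
  toStarSubalgebra := StarSubalgebra.map ampHom N.toStarSubalgebra
  centralizer_centralizer' := by
    refine Set.Subset.antisymm (fun T hT => ?_) Set.subset_centralizer_centralizer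
    obtain ⟨y, hy, rfl⟩ := exists_amp_eq N o hT
    exact ⟨y, hy, rfl⟩

variable {N}

lemma mem_ampVNA {o : J} {T : Amp J H →L[ℂ] Amp J H} :
    T ∈ ampVNA N o ↔ ∃ y ∈ N, amp y = T := Iff.rfl

lemma amp_inj [Nonempty J] {x y : H →L[ℂ] H}
    (h : (amp x : Amp J H →L[ℂ] Amp J H) = amp y) : x = y := by
  rw [← sub_eq_zero, ← norm_eq_zero, ← amp_norm (J := J)]
  change ‖(ampHom (J := J) (H := H)) (x - y)‖ = 0
  rw [map_sub, ampHom_apply, ampHom_apply, h, sub_self, norm_zero]

end Vale.Agent.P078.Semifinite
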