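import Mathlib

/-!
# Semifinite von Neumann algebras

A von Neumann algebra is semifinite if it has a faithful normal semifinite trace; such a trace is
written here as a sum of vector functionals.
-/

namespace Vale.Agent.P078.Semifinite

universe u

variable {H : Type u} [NormedAddCommGroup H] [InnerProductSpace ℂ H] [CompleteSpace H]

/-- There is a family of vectors `ξ` such that `τ (star x * x) = ∑' i, ‖x (ξ i)‖ ^ 2` is tracial
(equal to `τ (x * star x)`), faithful and semifinite on `M`. -/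
def IsSemifinite (M : VonNeumannAlgebra H) : Prop :=
  ∃ (ι : Type u) (ξ : ι → H),
    (∀ x ∈ M, ∑' i, ENNReal.ofReal (‖x (ξ i)‖ ^ 2) = ∑' i, ENNReal.ofReal (‖star x (ξ i)‖ ^ 2)) ∧
    (∀ x ∈ M, (∀ i, x (ξ i) = 0) → x = 0) ∧
    (∀ x ∈ M, x ≠ 0 → ∃ f ∈ M, IsStarProjection f ∧ x * f ≠ 0 ∧
      ∑' i, ENNReal.ofReal (‖f (ξ i)‖ ^ 2) ≠ ⊤)

end Vale.Agent.P078.Semifinite
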