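import Vale.Agent.P078.General.Corner
import Vale.Agent.P078.Semifinite.Defs

/-!
# Finite trace projections in an expected MASA of a semifinite algebra
-/

namespace Vale.Agent.P078.Semifinite

open ComplexInnerProductSpace
open Filter Topology
open Vale.Agent.P078 Vale.Agent.P078.General

universe u

variable {H : Type u} [NormedAddCommGroup H] [InnerProductSpace ℂ H] [CompleteSpace H]
variable {M : VonNeumannAlgebra H} {A : StarSubalgebra ℂ (H →L[ℂ] H)}

/-- The vectors `ξ i` give a trace on `M`, faithful and semifinite. -/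
structure Trace (M : VonNeumannAlgebra H) {ι : Type u} (ξ : ι → H) : Prop where
  tr : ∀ x ∈ M, ∑' i, ENNReal.ofReal (‖x (ξ i)‖ ^ 2) = ∑' i, ENNReal.ofReal (‖star x (ξ i)‖ ^ 2)
  faithful : ∀ x ∈ M, (∀ i, x (ξ i) = 0) → x = 0
  semi : ∀ x ∈ M, x ≠ 0 → ∃ f ∈ M, IsStarProjection f ∧ x * f ≠ 0 ∧
    ∑' i, ENNReal.ofReal (‖f (ξ i)‖ ^ 2) ≠ ⊤

variable {ι : Type u} {ξ : ι → H}

/-- `x` has finite trace-norm. -/
def IsTr (ξ : ι → H) (x : H →L[ℂ] H) : Prop := Summable fun i => ‖x (ξ i)‖ ^ 2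

/-- The squared trace-norm. -/
noncomputable def trSq (ξ : ι → H) (x : H →L[ℂ] H) : ℝ := ∑' i, ‖x (ξ i)‖ ^ 2

omit [CompleteSpace H] in
lemma trSq_nonneg (x : H →L[ℂ] H) : 0 ≤ trSq ξ x := tsum_nonneg (fun _ => sq_nonneg _)

lemma Trace.swap (hT : Trace M ξ) {x : H →L[ℂ] H} (hx : x ∈ M) (hf : IsTr ξ x) :
    IsTr ξ (star x) ∧ trSq ξ (star x) = trSq ξ x := by
  have h1 := hT.tr x hx
  rw [← ENNReal.ofReal_tsum_of_nonneg (fun _ => sq_nonneg _) hf] at h1
  have hs : IsTr ξ (star x) := by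
    have := ENNReal.summable_toReal (h1 ▸ ENNReal.ofReal_ne_top :
      ∑' i, ENNReal.ofReal (‖star x (ξ i)‖ ^ 2) ≠ ⊤)
    exact this.congr (fun i => ENNReal.toReal_ofReal (sq_nonneg _))
  rw [← ENNReal.ofReal_tsum_of_nonneg (fun _ => sq_nonneg _) hs] at h1
  exact ⟨hs, ((ENNReal.ofReal_eq_ofReal_iff (trSq_nonneg x) (trSq_nonneg _)).1 h1).symm⟩

omit [CompleteSpace H] in
lemma IsTr.mul_left {x : H →L[ℂ] H} (hf : IsTr ξ x) (a : H →L[ℂ] H) : IsTr ξ (a * x) :=
  Summable.of_nonneg_of_le (fun _ => sq_nonneg _)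
    (fun i => by
      rw [← mul_pow]
      exact pow_le_pow_left₀ (norm_nonneg _) (a.le_opNorm _) 2)
    (Summable.mul_left (‖a‖ ^ 2) hf)

lemma IsTr.mul_right (hT : Trace M ξ) {x a : H →L[ℂ] H} (hx : x ∈ M) (ha : a ∈ M)
    (hf : IsTr ξ x) : IsTr ξ (x * a) := by
  have h1 := (hT.swap hx hf).1.mul_left (star a)
  have h2 := (hT.swap (mul_mem (star_mem ha) (star_mem hx)) h1).1
  simpa using h2

omit [CompleteSpace H] in
lemma IsTr.add {x y : H →L[ℂ] H} (hx : IsTr ξ x) (hy : IsTr ξ y) : IsTr ξ (x + y) := by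
  refine Summable.of_nonneg_of_le (fun _ => sq_nonneg _) (fun i => ?_)
    ((Summable.add hx hy).mul_left 2)
  have h1 := norm_add_le (x (ξ i)) (y (ξ i))
  have h2 := pow_le_pow_left₀ (norm_nonneg _) h1 2
  rw [add_apply]
  nlinarith [sq_nonneg (‖x (ξ i)‖ - ‖y (ξ i)‖)]

omit [CompleteSpace H] in
lemma IsTr.smul {x : H →L[ℂ] H} (hx : IsTr ξ x) (c : ℂ) : IsTr ξ (c • x) :=
  (Summable.mul_left (‖c‖ ^ 2) hx).congr (fun i => by rw [smul_apply, norm_smul, mul_pow])

variable (hA : IsMASAIn M A)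

/-- A projection of `A` of finite trace below the expected corner. -/
structure Good (ξ : ι → H) (g : H →L[ℂ] H) : Prop where
  mem : g ∈ A
  proj : IsStarProjection g
  le : g * eProj hA = g
  fin : IsTr ξ g

variable {hA} (hT : Trace M ξ)
include hT

/-- Below the expected corner every projection of `A` dominates one of finite trace. -/
lemma exists_finite_subproj {p : H →L[ℂ] H} (hpA : p ∈ A) (hp : IsStarProjection p)
    (hpe : p * eProj hA = p) (hne : p ≠ 0) :
    ∃ s, Good hA ξ s ∧ s ≠ 0 ∧ s * p = s := by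
  classical
  have hpM : p ∈ M := hA.mem_M hpA
  obtain ⟨f, hfM, hf, hpf, hff⟩ := hT.semi p hpM hne
  have hff' : IsTr ξ f :=
    (ENNReal.summable_toReal hff).congr (fun i => ENNReal.toReal_ofReal (sq_nonneg _))
  set y := p * f * p with hy
  have hyM : y ∈ M := mul_mem (mul_mem hpM hfM) hpM
  have hys : IsSelfAdjoint y := by simpa [hp.isSelfAdjoint.star_eq] using hf.isSelfAdjoint.conjugate p
  have hyp : ∀ v, 0 ≤ (⟪y v, v⟫).re := fun v => by
    change 0 ≤ (⟪p (f (p v)), v⟫).re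
    rw [sa_inner hp.isSelfAdjoint, proj_inner_apply hf, re_inner_self]
    positivity
  have hy1 : ‖y‖ ≤ 1 := (conj_norm_le hp hp f).trans hf.norm_le
  have hy0 : y ≠ 0 := by
    intro h0
    have h1 : star (f * p) * (f * p) = 0 := by
      rw [star_mul, hf.isSelfAdjoint.star_eq, hp.isSelfAdjoint.star_eq, mul_assoc,
        ← mul_assoc f f, hf.isIdempotentElem.eq, ← mul_assoc]
      exact h0
    have h2 := congrArg star ((CStarRing.star_mul_self_eq_zero_iff _).1 h1)
    rw [star_mul, star_zero, hf.isSelfAdjoint.star_eq, hp.isSelfAdjoint.star_eq] at h2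
    exact hpf h2
  have hye : y * eProj hA = y := by rw [hy, mul_assoc, hpe]
  obtain ⟨ψ, hψ, hψy⟩ := exists_central_normal_ne_zero hA hyM hys hyp hye hy0
  have hyt : IsTr ξ y := IsTr.mul_right hT (mul_mem hpM hfM) hpM (hff'.mul_left p)
  let S : Set (H →L[ℂ] H) := {d | ∃ u ∈ A, star u = u ∧ u * u = 1 ∧ d = u * y * u}
  let G : Set (H →L[ℂ] H) := {d | d ∈ M ∧ IsSelfAdjoint d ∧ (∀ v, 0 ≤ (⟪d v, v⟫).re) ∧
    ‖d‖ ≤ 1 ∧ d * p = d ∧ ψ d = ψ y ∧ IsTr ξ d}
  have hsymn : ∀ u ∈ A, star u = u → u * u = 1 → ∀ v, ‖u v‖ = ‖v‖ := fun u _ hus huu v => by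
    refine (sq_eq_sq₀ (norm_nonneg _) (norm_nonneg _)).1 ?_
    rw [@norm_sq_eq_re_inner ℂ, @norm_sq_eq_re_inner ℂ, sa_inner hus, ← mul_apply_eq_comp, huu,
      one_apply_eq_self]
  have hSG : S ⊆ G := by
    rintro d ⟨u, huA, hus, huu, rfl⟩
    have huM := hA.mem_M huA
    have hu1 : ‖u‖ ≤ 1 := ContinuousLinearMap.opNorm_le_bound _ zero_le_one
      (fun v => by rw [one_mul, hsymn u huA hus huu v])
    refine ⟨mul_mem (mul_mem huM hyM) huM, by simpa [hus] using hys.conjugate u, fun v => ?_, ?_,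
      ?_, ?_, IsTr.mul_right hT (mul_mem huM hyM) huM (hyt.mul_left u)⟩
    · change 0 ≤ (⟪u (y (u v)), v⟫).re
      rw [sa_inner hus]
      exact hyp _
    · calc ‖u * y * u‖ ≤ ‖u‖ * ‖y‖ * ‖u‖ :=
            (norm_mul_le _ _).trans (mul_le_mul_of_nonneg_right (norm_mul_le _ _) (norm_nonneg _))
        _ ≤ 1 * 1 * 1 := by gcongr
        _ = 1 := by norm_num
    · rw [mul_assoc, hA.comm huA hpA, ← mul_assoc, hy]
      simp only [mul_assoc]
      rw [← mul_assoc p p, hp.isIdempotentElem.eq]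
    · rw [mul_assoc, hψ.2.1 u huA _ (mul_mem hyM huM), mul_assoc, huu, mul_one]
  have hGc : Convex ℝ G := by
    rintro d ⟨d1, d2, d3, d4, d5, d6, d7⟩ d' ⟨e1, e2, e3, e4, e5, e6, e7⟩ a b ha hb hab
    simp only [← Complex.coe_smul]
    refine ⟨add_mem (smul_mem_vna _ d1) (smul_mem_vna _ e1), ?_, fun v => ?_, ?_, ?_, ?_,
      (d7.smul _).add (e7.smul _)⟩
    · simp only [Complex.coe_smul]
      exact ((IsSelfAdjoint.all a).smul d2).add ((IsSelfAdjoint.all b).smul e2)
    · simp only [add_apply, smul_apply, inner_add_left, inner_smul_left, Complex.conj_ofReal,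
        Complex.add_re, Complex.re_ofReal_mul]
      exact add_nonneg (mul_nonneg ha (d3 v)) (mul_nonneg hb (e3 v))
    · refine (norm_add_le _ _).trans ?_
      rw [norm_smul, norm_smul, Complex.norm_real, Complex.norm_real, Real.norm_of_nonneg ha,
        Real.norm_of_nonneg hb]
      nlinarith [norm_nonneg d, norm_nonneg d']
    · rw [add_mul, smul_mul_assoc, smul_mul_assoc, d5, e5]
    · rw [map_add, map_smul, map_smul, d6, e6, ← add_smul, ← Complex.ofReal_add, hab,
        Complex.ofReal_one, one_smul]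
  set C := convexHull ℝ S with hC
  have hCG : C ⊆ G := convexHull_min hSG hGc
  have hCu : ∀ u ∈ A, star u = u → u * u = 1 → ∀ d ∈ C, u * d * u ∈ C := by
    intro u huA hus huu d hd
    refine convexHull_min (t := {d | u * d * u ∈ C}) ?_ ?_ hd
    · rintro _ ⟨v, hvA, hvs, hvv, rfl⟩
      refine subset_convexHull ℝ S ⟨u * v, mul_mem huA hvA, ?_, ?_, ?_⟩
      · rw [star_mul, hus, hvs, hA.comm hvA huA]
      · calc u * v * (u * v) = u * (v * u) * v := by simp only [mul_assoc]
          _ = u * (u * v) * v := by rw [hA.comm hvA huA]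
          _ = (u * u) * (v * v) := by simp only [mul_assoc]
          _ = 1 := by rw [huu, hvv, one_mul]
      · conv_rhs => arg 2; rw [hA.comm huA hvA]
        simp only [mul_assoc]
    · intro d1 h1 d2 h2 a b ha hb hab
      have e : u * (a • d1 + b • d2) * u = a • (u * d1 * u) + b • (u * d2 * u) := by
        simp [mul_add, add_mul]
      change u * (a • d1 + b • d2) * u ∈ C
      rw [e]
      exact convex_convexHull ℝ S h1 h2 ha hb hab
  have hyC : y ∈ C := subset_convexHull ℝ S ⟨1, one_mem A, star_one _, one_mul 1, by simp⟩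
  have hbd : BddBelow (trSq ξ '' C) := ⟨0, by rintro _ ⟨d, -, rfl⟩; exact trSq_nonneg d⟩
  set m := sInf (trSq ξ '' C)
  have hmin : ∀ n : ℕ, ∃ d ∈ C, trSq ξ d ≤ m + 1 / ((n : ℝ) + 1) := fun n => by
    obtain ⟨_, ⟨d, hd, rfl⟩, hlt⟩ := exists_lt_of_csInf_lt (Set.Nonempty.image (trSq ξ) ⟨y, hyC⟩)
      (show m < m + 1 / ((n : ℝ) + 1) by
        have : (0 : ℝ) < 1 / ((n : ℝ) + 1) := by positivity
        linarith)
    exact ⟨d, hd, hlt.le⟩
  choose d hdC hdm using hmin
  have hpar : ∀ a ∈ C, ∀ b ∈ C, ∀ i,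
      ‖(a - b) (ξ i)‖ ^ 2 ≤ 2 * trSq ξ a + 2 * trSq ξ b - 4 * m := by
    intro a ha b hb i
    set c := (1 / 2 : ℝ) • a + (1 / 2 : ℝ) • b with hc
    have hcC : c ∈ C :=
      convex_convexHull ℝ S ha hb (by norm_num) (by norm_num) (by norm_num)
    have hm : m ≤ trSq ξ c := csInf_le hbd ⟨c, hcC, rfl⟩
    have fa := (hCG ha).2.2.2.2.2.2
    have fb := (hCG hb).2.2.2.2.2.2
    have fc := (hCG hcC).2.2.2.2.2.2
    have e : ∀ i, ‖(a - b) (ξ i)‖ ^ 2
        = 2 * ‖a (ξ i)‖ ^ 2 + 2 * ‖b (ξ i)‖ ^ 2 - 4 * ‖c (ξ i)‖ ^ 2 := by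
      intro i
      have h1 := parallelogram_law_with_norm ℂ (a (ξ i)) (b (ξ i))
      have h2 : ‖a (ξ i) + b (ξ i)‖ = 2 * ‖c (ξ i)‖ := by
        rw [hc, ← smul_add, smul_apply, norm_smul, Real.norm_of_nonneg (by norm_num), add_apply]
        ring
      rw [sub_apply]
      rw [h2] at h1
      nlinarith [h1]
    have hsum : HasSum (fun i => ‖(a - b) (ξ i)‖ ^ 2)
        (2 * trSq ξ a + 2 * trSq ξ b - 4 * trSq ξ c) := by
      simp only [e]
      exact (((Summable.hasSum fa).mul_left 2).add ((Summable.hasSum fb).mul_left 2)).sub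
        ((Summable.hasSum fc).mul_left 4)
    have h3 := le_hasSum hsum i (fun j _ => sq_nonneg _)
    linarith
  obtain ⟨k, hk⟩ := exists_weak_limit d (fun n => (hCG (hdC n)).2.2.2.1)
  have hkM : k ∈ M := weak_limit_mem (fun n => (hCG (hdC n)).1) hk
  have hks : IsSelfAdjoint k := weak_limit_sa (fun n => (hCG (hdC n)).2.1) hk
  have hk0 : ∀ v, 0 ≤ (⟪k v, v⟫).re := fun v =>
    ge_of_tendsto' ((Complex.continuous_re.tendsto _).comp (hk v v))
      (fun n => (hCG (hdC n)).2.2.1 v)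
  have hk1 : ‖k‖ ≤ 1 := by
    refine ContinuousLinearMap.opNorm_le_of_re_inner_le zero_le_one (fun v w hv hw => ?_)
    refine (Complex.re_le_norm _).trans (le_of_tendsto' (hk v w).norm (fun n => ?_))
    refine (norm_inner_le_norm _ _).trans ?_
    rw [hw, mul_one]
    exact ((d n).le_opNorm v).trans (by rw [hv, mul_one]; exact (hCG (hdC n)).2.2.2.1)
  have hlimξ : ∀ i, Tendsto (fun n => d n (ξ i)) atTop (𝓝 (k (ξ i))) := by
    intro i
    have hC1 : CauchySeq (fun n => d n (ξ i)) := by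
      rw [Metric.cauchySeq_iff]
      intro ε hε
      obtain ⟨N, hN⟩ := exists_nat_gt (4 / ε ^ 2)
      refine ⟨N, fun a ha b hb => ?_⟩
      rw [dist_eq_norm, ← sub_apply]
      refine (sq_lt_sq₀ (norm_nonneg _) hε.le).1 ?_
      have hNa : ∀ a, N ≤ a → 1 / ((a : ℝ) + 1) < ε ^ 2 / 4 := fun a ha => by
        rw [div_lt_div_iff₀ (by positivity) (by norm_num)]
        have h5 : (4 : ℝ) < ε ^ 2 * ((a : ℝ) + 1) := by
          rw [div_lt_iff₀ (by positivity)] at hN
          have : (N : ℝ) ≤ a := by exact_mod_cast ha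
          nlinarith
        linarith
      have := hpar _ (hdC a) _ (hdC b) i
      nlinarith [hdm a, hdm b, hNa a ha, hNa b hb]
    obtain ⟨L, hL⟩ := cauchySeq_tendsto_of_complete hC1
    suffices k (ξ i) = L by rwa [this]
    refine ext_inner_right ℂ (fun w => tendsto_nhds_unique (hk (ξ i) w) ?_)
    exact (hL.mono_left Nat.hyperfilter_le_atTop).inner tendsto_const_nhds
  have hkt : IsTr ξ k := by
    refine summable_of_sum_le (c := m + 1) (fun i => sq_nonneg _) (fun F => ?_)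
    refine le_of_tendsto' (tendsto_finsetSum F (fun i _ => (hlimξ i).norm.pow 2)) (fun n => ?_)
    refine ((hCG (hdC n)).2.2.2.2.2.2.sum_le_tsum F (fun i _ => sq_nonneg _)).trans ?_
    refine (hdm n).trans ?_
    have : 1 / ((n : ℝ) + 1) ≤ 1 := by
      rw [div_le_one (by positivity)]; linarith [(Nat.cast_nonneg n : (0 : ℝ) ≤ n)]
    linarith
  have hku : ∀ u ∈ A, star u = u → u * u = 1 → k = u * k * u := by
    intro u huA hus huu
    have huM := hA.mem_M huA
    refine sub_eq_zero.1 (hT.faithful _ (sub_mem hkM (mul_mem (mul_mem huM hkM) huM))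
      (fun i => ?_))
    have hN : ∀ n, trSq ξ (u * d n * u) = trSq ξ (d n) := by
      intro n
      have hdM := (hCG (hdC n)).1
      have e1 : trSq ξ (u * d n * u) = trSq ξ (d n * u) := by
        refine tsum_congr (fun j => ?_)
        rw [mul_assoc, mul_apply_eq_comp, hsymn u huA hus huu]
      have e2 : trSq ξ (u * d n) = trSq ξ (d n) := by
        refine tsum_congr (fun j => ?_)
        rw [mul_apply_eq_comp, hsymn u huA hus huu]
      have e3 := (hT.swap (mul_mem hdM huM)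
        (IsTr.mul_right hT hdM huM (hCG (hdC n)).2.2.2.2.2.2)).2
      rw [star_mul, hus, (hCG (hdC n)).2.1.star_eq] at e3
      rw [e1, ← e3, e2]
    have h1 : Tendsto (fun n => (d n - u * d n * u) (ξ i)) atTop (𝓝 0) := by
      refine squeeze_zero_norm (a := fun n : ℕ => Real.sqrt (4 * (1 / ((n : ℝ) + 1)))) (fun n => ?_) ?_
      · refine Real.le_sqrt_of_sq_le ?_
        have := hpar _ (hdC n) _ (hCu u huA hus huu _ (hdC n)) i
        rw [hN n] at this
        linarith [hdm n]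
      · simpa using (tendsto_one_div_add_atTop_nhds_zero_nat.const_mul (4 : ℝ)).sqrt
    refine ext_inner_right ℂ (fun w => ?_)
    rw [inner_zero_left]
    refine tendsto_nhds_unique (l := (hyperfilter ℕ : Filter ℕ))
      (f := fun n => ⟪(d n - u * d n * u) (ξ i), w⟫) ?_ ?_
    · simp only [sub_apply, inner_sub_left, mul_apply_eq_comp, sa_inner hus]
      exact (hk _ w).sub (hk _ _)
    · simpa [inner_sub_left] using Filter.Tendsto.inner (𝕜 := ℂ) (h1.mono_left Nat.hyperfilter_le_atTop)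
        (tendsto_const_nhds (x := w))
  have hkA : k ∈ A := by
    refine hA.mem_of_commute (hA.comm_of_comm_proj (fun q hqA hq => ?_))
      (fun z hz => commute_of_mem_centralizer hkM hz)
    set u := (2 : ℂ) • q - 1 with hu
    have huA : u ∈ A := sub_mem (A.toSubalgebra.smul_mem hqA _) (one_mem A)
    have hus : star u = u := by simp [u, hq.isSelfAdjoint.star_eq, map_ofNat]
    have huu : u * u = 1 := by
      simp only [u, sub_mul, mul_sub, smul_mul_assoc, mul_smul_comm, one_mul, mul_one,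
        hq.isIdempotentElem.eq, smul_smul]
      module
    have e := congrArg (fun z => u * z) (hku u huA hus huu)
    simp only [← mul_assoc, huu, one_mul] at e
    simp only [u, sub_mul, mul_sub, smul_mul_assoc, mul_smul_comm, one_mul, mul_one] at e
    rw [sub_left_inj] at e
    exact smul_right_injective (H →L[ℂ] H) (two_ne_zero : (2 : ℂ) ≠ 0) e
  have hψk : ψ k = ψ y := by
    rw [← sub_eq_zero, ← norm_eq_zero]
    refine le_antisymm (le_of_forall_pos_le_add (fun ε hε => ?_)) (norm_nonneg _)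
    obtain ⟨n, v, w, hvw⟩ := hψ.2.2 (ε / 2) (half_pos hε)
    have h1 : Tendsto (fun l => ∑ i, ⟪w i, d l (v i)⟫) (hyperfilter ℕ : Filter ℕ)
        (𝓝 (∑ i, ⟪w i, k (v i)⟫)) := by
      refine tendsto_finsetSum _ (fun i _ => ?_)
      have := (Complex.continuous_conj.tendsto _).comp (hk (v i) (w i))
      simpa [Function.comp_def, inner_conj_symm] using this
    have h2 : ‖ψ y - ∑ i, ⟪w i, k (v i)⟫‖ ≤ ε / 2 := by
      refine le_of_tendsto' (tendsto_const_nhds.sub h1).norm (fun l => ?_)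
      have := hvw (d l) (hCG (hdC l)).1
      rw [(hCG (hdC l)).2.2.2.2.2.1] at this
      exact this.trans (mul_le_of_le_one_right (half_pos hε).le (hCG (hdC l)).2.2.2.1)
    have h3 := (hvw k hkM).trans (mul_le_of_le_one_right (half_pos hε).le hk1)
    calc ‖ψ k - ψ y‖ ≤ ‖ψ k - ∑ i, ⟪w i, k (v i)⟫‖ + ‖ψ y - ∑ i, ⟪w i, k (v i)⟫‖ :=
          by rw [norm_sub_rev (ψ y)]; exact norm_sub_le_norm_sub_add_norm_sub _ _ _
      _ ≤ 0 + ε := by linarith
  have hkp : k * p = k := by
    refine ContinuousLinearMap.ext (fun v => ext_inner_right ℂ (fun w => ?_))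
    refine tendsto_nhds_unique (l := (hyperfilter ℕ : Filter ℕ)) (hk (p v) w) ?_
    refine (hk v w).congr (fun n => ?_)
    rw [← mul_apply_eq_comp (d n) p, (hCG (hdC n)).2.2.2.2.1]
  obtain ⟨u₀, hu₀⟩ : ∃ u₀, 0 < (⟪k u₀, u₀⟫).re := by
    by_contra! hcon
    have : k = 0 := ContinuousLinearMap.ext (fun v =>
      eq_zero_of_inner_eq_zero hks hk0 (le_antisymm (hcon v) (hk0 v)))
    rw [this, map_zero] at hψk
    exact hψy hψk.symm
  set t := (⟪k u₀, u₀⟫).re / (2 * (‖u₀‖ ^ 2 + 1)) with ht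
  have ht0 : 0 < t := by positivity
  obtain ⟨s, hs, hsc, hlow, hup, -⟩ := exists_cut hks hk0 ht0
  have hsA : s ∈ A := hA.mem_of_commute
    (fun a ha => hsc a (hA.comm hkA ha) (hA.comm hkA (star_mem ha)))
    (fun z hz => hsc z (commute_of_mem_centralizer hkM hz).symm
      (commute_of_mem_centralizer hkM (mem_commutant_star hz)).symm)
  have hsp : s * p = s := eq_mul_of_dominated ht0 hp hlow hkp
  refine ⟨s, ⟨hsA, hs, by rw [← hsp, mul_assoc, hpe], ?_⟩, fun h0 => ?_, hsp⟩
  · refine Summable.of_nonneg_of_le (fun i => sq_nonneg _) (fun i => ?_) (Summable.mul_left ((1 / t) ^ 2) hkt)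
    rw [← mul_pow]
    refine pow_le_pow_left₀ (norm_nonneg _) ?_ 2
    rw [one_div, le_inv_mul_iff₀ ht0]
    have h1 := hlow (s (ξ i))
    rw [proj_apply_apply hs] at h1
    have h2 : ‖k (s (ξ i))‖ ≤ ‖k (ξ i)‖ := by
      have : k (s (ξ i)) = s (k (ξ i)) := DFunLike.congr_fun (hA.comm hkA hsA) (ξ i)
      rw [this]
      exact proj_norm_le hs _
    have h3 : (⟪k (s (ξ i)), s (ξ i)⟫).re ≤ ‖k (ξ i)‖ * ‖s (ξ i)‖ :=
      (Complex.re_le_norm _).trans ((norm_inner_le_norm _ _).trans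
        (mul_le_mul_of_nonneg_right h2 (norm_nonneg _)))
    rcases (norm_nonneg (s (ξ i))).eq_or_lt with h4 | h4
    · rw [← h4]; simp
    · exact le_of_mul_le_mul_right (by nlinarith) h4
  · have h1 := hup u₀ (by rw [h0]; rfl)
    have h2 : t * ‖u₀‖ ^ 2 ≤ (⟪k u₀, u₀⟫).re / 2 := by
      calc t * ‖u₀‖ ^ 2 ≤ t * (‖u₀‖ ^ 2 + 1) := by linarith
        _ = _ := by rw [ht]; field_simp
    linarith

omit hT in
lemma Good.zero : Good hA ξ (0 : H →L[ℂ] H) :=
  ⟨zero_mem A, IsStarProjection.zero _, zero_mul _, by simp [IsTr, summable_zero]⟩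

omit hT in
lemma Good.join {g h : H →L[ℂ] H} (hg : Good hA ξ g) (hh : Good hA ξ h) :
    ∃ j, Good hA ξ j ∧ j * g = g ∧ j * h = h := by
  have h1 : (1 - g) ∈ A := sub_mem (one_mem A) hg.mem
  have hgg := hg.proj.isIdempotentElem.eq
  have hhh := hh.proj.isIdempotentElem.eq
  have hc := hA.comm hh.mem hg.mem
  have e1 : g * ((1 - g) * h) = 0 := by rw [← mul_assoc, mul_sub, mul_one, hgg, sub_self, zero_mul]
  refine ⟨g + (1 - g) * h, ⟨add_mem hg.mem (mul_mem h1 hh.mem), ?_, ?_, ?_⟩, ?_, ?_⟩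
  · exact hg.proj.add (hA.mul_proj hg.proj.one_sub hh.proj h1 hh.mem) e1
  · rw [add_mul, mul_assoc, hg.le, hh.le]
  · exact hg.fin.add (hh.fin.mul_left _)
  · rw [add_mul, hgg, mul_assoc, hc, ← mul_assoc, sub_mul, one_mul, hgg, sub_self, zero_mul,
      add_zero]
  · rw [add_mul, mul_assoc, hhh, sub_mul, one_mul, add_sub_cancel]

/-- The expected corner is a strong limit of finite-trace projections of `A`. -/
lemma exists_finite_below (F : Finset H) {δ : ℝ} (hδ : 0 < δ) :
    ∃ g, Good hA ξ g ∧ ∀ v ∈ F, ‖(eProj hA - g) v‖ < δ := by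
  classical
  set e := eProj hA with he'
  have he : IsStarProjection e := eProj_proj hA
  have heA : e ∈ A := eProj_mem hA
  let U : Submodule ℂ H :=
    { carrier := {v | ∃ g, Good hA ξ g ∧ g v = v}
      zero_mem' := ⟨0, Good.zero, rfl⟩
      add_mem' := by
        rintro v w ⟨g, hg, hgv⟩ ⟨h, hh, hhw⟩
        obtain ⟨j, hj, hjg, hjh⟩ := hg.join hh
        refine ⟨j, hj, ?_⟩
        conv_lhs => rw [← hgv, ← hhw, map_add, ← mul_apply_eq_comp, ← mul_apply_eq_comp, hjg, hjh,
          hgv, hhw]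
      smul_mem' := by
        rintro c v ⟨g, hg, hgv⟩
        exact ⟨g, hg, by rw [map_smul, hgv]⟩ }
  let W := U.topologicalClosure
  have : CompleteSpace W := Submodule.topologicalClosure.completeSpace _
  have hinv : ∀ T : H →L[ℂ] H, (∀ g, Good hA ξ g → g * T = T * g) → ∀ v ∈ W, T v ∈ W := by
    intro T hTc v hv
    refine Submodule.topologicalClosure_minimal (t := Submodule.comap (T : H →ₗ[ℂ] H) W) _ ?_
      ((Submodule.isClosed_topologicalClosure _).preimage T.continuous) hv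
    rintro w ⟨g, hg, hgw⟩
    refine Submodule.le_topologicalClosure _ ⟨g, hg, ?_⟩
    change g (T w) = T w
    rw [← mul_apply_eq_comp, hTc g hg, mul_apply_eq_comp, hgw]
  set Q := W.starProjection with hQ
  have hQA : Q ∈ A := hA.proj_mem W (fun a ha => hinv a (fun g hg => hA.comm hg.mem ha))
    (fun z hz => hinv z (fun g hg => (commute_of_mem_centralizer (hA.mem_M hg.mem) hz).symm))
  have hQp : IsStarProjection Q := isStarProjection_starProjection
  have heQ : e * Q = Q := by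
    refine ContinuousLinearMap.ext (fun v => ?_)
    have hW : ∀ w ∈ W, e w = w := by
      intro w hw
      refine (isClosed_eq e.continuous continuous_id).closure_subset_iff.2 ?_ hw
      rintro u ⟨g, hg, hgu⟩
      change e u = u
      conv_lhs => rw [← hgu, ← mul_apply_eq_comp, hA.comm heA hg.mem, hg.le, hgu]
    exact hW _ (W.starProjection_apply_mem v)
  have hQe : Q * e = Q := (hA.comm hQA heA).trans heQ
  have hQeq : Q = e := by
    by_contra hne
    obtain ⟨s, hs, hs0, hsp⟩ := exists_finite_subproj hT (p := e - Q) (sub_mem heA hQA)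
      (hQp.sub_of_mul_eq_left he hQe) (by rw [sub_mul, he.isIdempotentElem.eq, hQe])
      (sub_ne_zero.2 (Ne.symm hne))
    have h1 : Q * s = s := ContinuousLinearMap.ext (fun v =>
      Submodule.starProjection_eq_self_iff.2
        (Submodule.le_topologicalClosure _ ⟨s, hs, proj_apply_apply hs.proj v⟩))
    have h2 : s * Q = 0 := by
      conv_lhs => rw [← hsp]
      rw [mul_assoc, sub_mul, heQ, hQp.isIdempotentElem.eq, sub_self, mul_zero]
    rw [hA.comm hQA hs.mem, h2] at h1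
    exact hs0 h1.symm
  have key : ∀ v, ∃ g, Good hA ξ g ∧ ‖(e - g) v‖ < δ := by
    intro v
    have hv : e v ∈ W := by rw [← hQeq]; exact W.starProjection_apply_mem v
    obtain ⟨w, ⟨g, hg, hgw⟩, hd⟩ := Metric.mem_closure_iff.1 hv δ hδ
    refine ⟨g, hg, lt_of_le_of_lt ?_ (by rwa [dist_eq_norm] at hd)⟩
    have e1 : (e - g) v = (1 - g) (e v - w) := by
      simp only [sub_apply, map_sub, one_apply_eq_self, hgw]
      rw [← mul_apply_eq_comp g e, hg.le]
      abel
    rw [e1]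
    exact proj_norm_le hg.proj.one_sub _
  induction F using Finset.induction with
  | empty => exact ⟨0, Good.zero, by simp⟩
  | insert v F _ ih =>
    obtain ⟨g, hg, hgF⟩ := ih
    obtain ⟨g', hg', hgv⟩ := key v
    obtain ⟨j, hj, hjg, hjg'⟩ := hg.join hg'
    have hmono : ∀ k, Good hA ξ k → j * k = k → ∀ w, ‖(e - j) w‖ ≤ ‖(e - k) w‖ := by
      intro k hk hjk w
      have e1 : e - j = (1 - j) * (e - k) := by
        rw [sub_mul, one_mul, mul_sub, hjk, hj.le]
        abel
      rw [e1]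
      exact proj_norm_le hj.proj.one_sub _
    refine ⟨j, hj, fun w hw => ?_⟩
    rcases Finset.mem_insert.1 hw with rfl | hw
    · exact (hmono g' hg' hjg' w).trans_lt hgv
    · exact (hmono g hg hjg w).trans_lt (hgF w hw)

end Vale.Agent.P078.Semifinite
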