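import Vale.Agent.P078.Finite.Setting
import Vale.Agent.P078.Semifinite.Trace
import Vale.Agent.P078.Semifinite.Amplify

/-!
# From the finite tracial core to every semifinite algebra
-/

namespace Vale.Agent.P078.Semifinite

open ComplexInnerProductSpace
open Filter Topology
open Vale.Agent.P078 Vale.Agent.P078.General Vale.Agent.P078.Finite

universe u

variable {H : Type u} [NormedAddCommGroup H] [InnerProductSpace ℂ H] [CompleteSpace H]
variable {M : VonNeumannAlgebra H} {A : StarSubalgebra ℂ (H →L[ℂ] H)}

/-- Operators cutting out `g M g + ℂ (1 - g)`. -/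
def scalarSet (M : VonNeumannAlgebra H) (g : H →L[ℂ] H) : Set (H →L[ℂ] H) :=
  Set.centralizer (M : Set (H →L[ℂ] H)) ∪
    ({g} ∪ Set.range (fun b => (1 - g) * b * (1 - g)))

/-- The algebra `g M g + ℂ (1 - g)`. -/
noncomputable def scalarCorner (M : VonNeumannAlgebra H) (g : H →L[ℂ] H) :
    VonNeumannAlgebra H where
  toStarSubalgebra := StarSubalgebra.centralizer ℂ (scalarSet M g)
  centralizer_centralizer' := by
    change Set.centralizer (Set.centralizer
      (StarSubalgebra.centralizer ℂ (scalarSet M g) : Set (H →L[ℂ] H))) = _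
    rw [StarSubalgebra.coe_centralizer, Set.centralizer_centralizer_centralizer]
    rfl

lemma scalarCorner_spec {g : H →L[ℂ] H} (hg : IsStarProjection g) (y : H →L[ℂ] H) :
    y ∈ scalarCorner M g ↔ y ∈ M ∧ g * y = y * g ∧
      ∀ b : H →L[ℂ] H, (1 - g) * b * (1 - g) * y = y * ((1 - g) * b * (1 - g)) := by
  change y ∈ StarSubalgebra.centralizer ℂ (scalarSet M g) ↔ _
  rw [StarSubalgebra.mem_centralizer_iff]
  refine ⟨fun h => ⟨mem_vna_of_commute (fun m hm => (h m (Or.inl hm)).1),
    (h g (Or.inr (Or.inl rfl))).1,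
    fun b => (h _ (Or.inr (Or.inr ⟨b, rfl⟩))).1⟩, ?_⟩
  rintro ⟨hyM, hyg, hyb⟩ z (hz | rfl | ⟨b, rfl⟩)
  · exact ⟨commute_of_mem_centralizer hyM hz,
      commute_of_mem_centralizer hyM (mem_commutant_star hz)⟩
  · exact ⟨hyg, by rw [hg.isSelfAdjoint.star_eq]; exact hyg⟩
  · refine ⟨hyb b, ?_⟩
    have e : star ((1 - g) * b * (1 - g)) = (1 - g) * star b * (1 - g) := by
      simp only [star_mul, hg.one_sub.isSelfAdjoint.star_eq, mul_assoc]
    rw [e]
    exact hyb _

/-- An element of `M` living below `g` lies in `g M g + ℂ (1 - g)`. -/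
lemma mem_scalarCorner_of_below {g y : H →L[ℂ] H} (hg : IsStarProjection g) (hy : y ∈ M)
    (h1 : g * y = y) (h2 : y * g = y) : y ∈ scalarCorner M g := by
  refine (scalarCorner_spec hg y).2 ⟨hy, h1.trans h2.symm, fun b => ?_⟩
  have e1 : (1 - g) * y = 0 := by rw [sub_mul, one_mul, h1, sub_self]
  have e2 : y * (1 - g) = 0 := by rw [mul_sub, mul_one, h2, sub_self]
  rw [mul_assoc _ (1 - g) y, e1, mul_zero, ← mul_assoc, ← mul_assoc, e2, zero_mul, zero_mul]

/-- Above `g` an element of the scalar corner is a scalar. -/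
lemma exists_scalar {g : H →L[ℂ] H} (hg : IsStarProjection g) {η : H} (hη : (1 - g) η = η)
    (hη1 : g = 1 ∨ ‖η‖ = 1) {y : H →L[ℂ] H} (hy : y ∈ scalarCorner M g) :
    ∃ c : ℂ, y * (1 - g) = c • (1 - g) := by
  obtain ⟨-, hyg, hyb⟩ := (scalarCorner_spec hg y).1 hy
  rcases hη1 with h1 | h1
  · exact ⟨0, by simp [h1]⟩
  refine ⟨⟪η, y η⟫, ContinuousLinearMap.ext (fun w => ?_)⟩
  have h2 := DFunLike.congr_fun (hyb (InnerProductSpace.rankOne ℂ ((1 - g) w) η)) η
  have hc : (1 - g) (y η) = y η := by
    rw [← mul_apply_eq_comp, sub_mul, one_mul, hyg, ← mul_one_sub, mul_apply_eq_comp, hη]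
  have hw : (1 - g) ((1 - g) w) = (1 - g) w := proj_apply_apply hg.one_sub w
  simp only [mul_apply_eq_comp, hη, hc, InnerProductSpace.rankOne_apply, map_smul, hw] at h2
  rw [inner_self_eq_norm_sq_to_K, h1] at h2
  simpa using h2.symm

variable {ι : Type u} {ξ : ι → H}

section core

variable (hA : IsMASAIn M A) (hT : Trace M ξ) {g : H →L[ℂ] H} (hg : Good hA ξ g) (η : H)

/-- The trace vector of the amplified finite corner. -/
noncomputable def traceVec (ξ : ι → H) (g : H →L[ℂ] H) (hfin : IsTr ξ g) (η : H) :
    Amp (Option ι) H :=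
  ⟨fun j => j.elim η (fun i => g (ξ i)), amp_memℓp (by
    have h1 : Summable ((fun j : Option ι => ‖j.elim η (fun i => g (ξ i))‖ ^ 2) ∘
        (some : ι → Option ι)) := hfin
    have h2 := (Option.some_injective ι).summable_iff (f := fun j : Option ι =>
      if j = none then 0 else ‖j.elim η (fun i => g (ξ i))‖ ^ 2) (fun j hj => by
        cases j with
        | none => simp
        | some i => exact absurd ⟨i, rfl⟩ hj)
    have h3 : Summable (fun j : Option ι =>
        if j = none then 0 else ‖j.elim η (fun i => g (ξ i))‖ ^ 2) := by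
      rw [← h2]
      exact h1.congr (fun i => by simp)
    have h4 : Summable (fun j : Option ι => if j = none then ‖η‖ ^ 2 else (0 : ℝ)) :=
      summable_of_ne_finset_zero (s := {none}) (fun j hj => by
        simp only [Finset.mem_singleton] at hj
        simp [hj])
    exact (h3.add h4).congr (fun j => by cases j <;> simp))⟩

omit [CompleteSpace H] in
lemma traceVec_some (hfin : IsTr ξ g) (i : ι) : traceVec ξ g hfin η (some i) = g (ξ i) := rfl

omit [CompleteSpace H] in
lemma traceVec_none (hfin : IsTr ξ g) : traceVec ξ g hfin η none = η := rfl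

omit [CompleteSpace H] in
lemma amp_traceVec_sq (hfin : IsTr ξ g) (z : H →L[ℂ] H) :
    HasSum (fun i => ‖(z * g) (ξ i)‖ ^ 2)
      (‖amp z (traceVec ξ g hfin η)‖ ^ 2 - ‖z η‖ ^ 2) := by
  have h1 := amp_hasSum (amp z (traceVec ξ g hfin η))
  have h2 := h1.sub (hasSum_ite_eq (none : Option ι) (‖z η‖ ^ 2))
  have h3 := ((Option.some_injective ι).hasSum_iff (a := ‖amp z (traceVec ξ g hfin η)‖ ^ 2
    - ‖z η‖ ^ 2) (fun j hj => ?_)).2 h2
  · refine h3.congr_fun (fun i => ?_)
    simp [traceVec_some]
  · cases j with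
    | none => simp [traceVec_none]
    | some i => exact absurd ⟨i, rfl⟩ hj

/-- The amplified MASA. -/
noncomputable def cornerMasa (M : VonNeumannAlgebra H) (A : StarSubalgebra ℂ (H →L[ℂ] H))
    (g : H →L[ℂ] H) : StarSubalgebra ℂ (Amp (Option ι) H →L[ℂ] Amp (Option ι) H) :=
  StarSubalgebra.map (ampHom (J := Option ι) (H := H)) (A ⊓ (scalarCorner M g).toStarSubalgebra)

lemma mem_cornerMasa {T : Amp (Option ι) H →L[ℂ] Amp (Option ι) H} :
    T ∈ cornerMasa M A g ↔ ∃ a, a ∈ A ∧ a ∈ scalarCorner M g ∧ amp a = T := by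
  constructor
  · rintro ⟨a, ⟨ha, ha'⟩, rfl⟩; exact ⟨a, ha, ha', rfl⟩
  · rintro ⟨a, ha, ha', rfl⟩; exact ⟨a, ⟨ha, ha'⟩, rfl⟩

include hT hg in
/-- The finite corner, amplified, is a finite tracial setting. -/
lemma finSetting {η : H} (hη : (1 - g) η = η) (hη1 : g = 1 ∨ ‖η‖ = 1) :
    FinSetting (ampVNA (scalarCorner M g) (none : Option ι)) (cornerMasa M A g)
      (traceVec ξ g hg.fin η) := by
  have hgp := hg.proj
  have hgg := hgp.isIdempotentElem.eq
  have hgM : g ∈ M := hA.mem_M hg.mem
  have hiso : ∀ z ∈ scalarCorner M g,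
      ‖amp (star z) (traceVec ξ g hg.fin η)‖ = ‖amp z (traceVec ξ g hg.fin η)‖ := by
    intro z hz
    obtain ⟨hzM, hzg, -⟩ := (scalarCorner_spec hgp z).1 hz
    obtain ⟨c, hc⟩ := exists_scalar hgp hη hη1 hz
    obtain ⟨c', hc'⟩ := exists_scalar hgp hη hη1 (star_mem hz)
    have h1 := amp_traceVec_sq (η := η) hg.fin z
    have h2 := amp_traceVec_sq (η := η) hg.fin (star z)
    have hzg' : IsTr ξ (z * g) := (h1.summable)
    have hsw := (hT.swap (mul_mem hzM hgM) hzg').2
    have e : star (z * g) = star z * g := by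
      rw [← hzg, star_mul, hgp.isSelfAdjoint.star_eq]
    rw [e] at hsw
    have e1 : trSq ξ (z * g) = _ := h1.tsum_eq
    have e2 : trSq ξ (star z * g) = _ := h2.tsum_eq
    have hzη : z η = c • η := by
      conv_lhs => rw [← hη, ← mul_apply_eq_comp, hc, smul_apply, hη]
    have hzη' : star z η = c' • η := by
      conv_lhs => rw [← hη, ← mul_apply_eq_comp, hc', smul_apply, hη]
    have hn : ‖star z η‖ = ‖z η‖ := by
      rcases hη1 with hh | hh
      · have : η = 0 := by rw [← hη, hh, sub_self, zero_apply]
        simp [this]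
      · have h5 : ⟪η, star z η⟫ = starRingEnd ℂ ⟪η, z η⟫ := by
          rw [ContinuousLinearMap.star_eq_adjoint, ContinuousLinearMap.adjoint_inner_right,
            inner_conj_symm]
        rw [hzη', hzη, inner_smul_right, inner_smul_right, inner_self_eq_norm_sq_to_K, hh] at h5
        simp only [Complex.coe_algebraMap, Complex.ofReal_one, one_pow, mul_one] at h5
        rw [hzη, hzη', norm_smul, norm_smul, h5, RCLike.norm_conj]
    refine (sq_eq_sq₀ (norm_nonneg _) (norm_nonneg _)).1 ?_
    rw [e1, e2, hn] at hsw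
    linarith
  refine ⟨?_, ?_, ?_⟩
  · refine Set.Subset.antisymm (fun T hT' => ?_) ?_
    · obtain ⟨a, ha, haN, rfl⟩ := mem_cornerMasa.1 hT'
      refine ⟨fun S hS => ?_, mem_ampVNA.2 ⟨a, haN, rfl⟩⟩
      obtain ⟨b, hb, -, rfl⟩ := mem_cornerMasa.1 hS
      change (ampHom (J := Option ι) (H := H)) b * (ampHom (J := Option ι) (H := H)) a = (ampHom (J := Option ι) (H := H)) a * (ampHom (J := Option ι) (H := H)) b
      rw [← map_mul, ← map_mul, hA.comm hb ha]
    · rintro T ⟨hTc, hTM⟩
      obtain ⟨y, hy, rfl⟩ := mem_ampVNA.1 hTM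
      refine mem_cornerMasa.2 ⟨y, ?_, hy, rfl⟩
      obtain ⟨hyM, hyg, -⟩ := (scalarCorner_spec hgp y).1 hy
      obtain ⟨c, hc⟩ := exists_scalar hgp hη hη1 hy
      refine hA.mem_of_commute (fun a ha => ?_) (fun m hm => commute_of_mem_centralizer hyM hm)
      have hag : a * g ∈ A := mul_mem ha hg.mem
      have hcom : g * (a * g) = a * g := by
        rw [← mul_assoc, hA.comm hg.mem ha, mul_assoc, hgg]
      have hag' : a * g ∈ scalarCorner M g :=
        mem_scalarCorner_of_below hgp (hA.mem_M hag) hcom (by rw [mul_assoc, hgg])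
      have h1 : a * g * y = y * (a * g) := by
        have := hTc _ (mem_cornerMasa.2 ⟨a * g, hag, hag', rfl⟩)
        change (ampHom (J := Option ι) (H := H)) (a * g) * (ampHom (J := Option ι) (H := H)) y
          = (ampHom (J := Option ι) (H := H)) y * (ampHom (J := Option ι) (H := H)) (a * g) at this
        rw [← map_mul, ← map_mul] at this
        exact amp_inj this
      have hy' : (1 - g) * y = y * (1 - g) := by
        rw [sub_mul, one_mul, hyg, mul_sub, mul_one]
      have h2 : a * (1 - g) * y = y * (a * (1 - g)) := by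
        calc a * (1 - g) * y = a * (y * (1 - g)) := by rw [mul_assoc, hy']
          _ = c • (a * (1 - g)) := by rw [hc, mul_smul_comm]
          _ = (c • (1 - g)) * a := by
              rw [smul_mul_assoc, hA.comm (sub_mem (one_mem A) hg.mem) ha]
          _ = y * ((1 - g) * a) := by rw [← hc, mul_assoc]
          _ = _ := by rw [hA.comm (sub_mem (one_mem A) hg.mem) ha]
      calc a * y = a * g * y + a * (1 - g) * y := by
            rw [← add_mul, ← mul_add, add_sub_cancel, mul_one]
        _ = y * (a * g) + y * (a * (1 - g)) := by rw [h1, h2]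
        _ = y * a := by rw [← mul_add, ← mul_add, add_sub_cancel, mul_one]
  · intro X hX Y hY
    obtain ⟨x, hx, rfl⟩ := mem_ampVNA.1 hX
    obtain ⟨y, hy, rfl⟩ := mem_ampVNA.1 hY
    set Ω := traceVec ξ g hg.fin η
    have key : ∀ a ∈ scalarCorner M g, ∀ b ∈ scalarCorner M g,
        ⟪amp a Ω, amp b Ω⟫ = ⟪amp (star b) Ω, amp (star a) Ω⟫ := by
      intro a ha b hb
      have hIb : Complex.I • b ∈ scalarCorner M g := smul_mem_vna _ hb
      have e1 : ‖amp a Ω + amp b Ω‖ = ‖amp (star b) Ω + amp (star a) Ω‖ := by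
        have := hiso _ (add_mem ha hb)
        rw [star_add] at this
        change ‖(ampHom (J := Option ι) (H := H)) (star a + star b) Ω‖
          = ‖(ampHom (J := Option ι) (H := H)) (a + b) Ω‖ at this
        rw [map_add, map_add] at this
        simpa [ampHom_apply, add_comm] using this.symm
      have e2 : ‖amp a Ω - amp b Ω‖ = ‖amp (star b) Ω - amp (star a) Ω‖ := by
        have := hiso _ (sub_mem ha hb)
        rw [star_sub] at this
        change ‖(ampHom (J := Option ι) (H := H)) (star a - star b) Ω‖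
          = ‖(ampHom (J := Option ι) (H := H)) (a - b) Ω‖ at this
        rw [map_sub, map_sub] at this
        rw [norm_sub_rev (amp (star b) Ω)]
        simpa [ampHom_apply] using this.symm
      have e3 : ∀ s : ℂ, ‖s‖ = 1 → s * starRingEnd ℂ s = 1 →
          ‖amp a Ω + s • amp b Ω‖ = ‖amp (star b) Ω + s • amp (star a) Ω‖ := by
        intro s hs1 hs
        have := hiso _ (add_mem ha (smul_mem_vna s hb))
        rw [star_add, star_smul] at this
        change ‖(ampHom (J := Option ι) (H := H)) (star a + starRingEnd ℂ s • star b) Ω‖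
          = ‖(ampHom (J := Option ι) (H := H)) (a + s • b) Ω‖ at this
        rw [map_add, map_add, map_smul, map_smul] at this
        simp only [add_apply, smul_apply, ampHom_apply] at this
        rw [← this]
        conv_rhs => rw [show amp (star b) Ω + s • amp (star a) Ω
          = s • (amp (star a) Ω + starRingEnd ℂ s • amp (star b) Ω) by
            rw [smul_add, smul_smul, hs, one_smul, add_comm]]
        rw [norm_smul, hs1, one_mul]
      have e4 := e3 Complex.I (by simp) (by simp)
      have e5 := e3 (-Complex.I) (by simp) (by simp)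
      simp only [neg_smul, ← sub_eq_add_neg] at e5
      rw [inner_eq_sum_norm_sq_div_four, inner_eq_sum_norm_sq_div_four, e1, e2]
      simp only [Complex.coe_algebraMap, RCLike.I_to_complex]
      rw [e4, e5]
    have h1 := key (star x) (star_mem hx) y hy
    have h2 : ∀ a b : H →L[ℂ] H, ⟪amp (star a) Ω, amp b Ω⟫ = ⟪Ω, ((amp a * amp b : Amp (Option ι) H →L[ℂ] Amp (Option ι) H)) Ω⟫ := by
      intro a b
      rw [amp_star, ContinuousLinearMap.star_eq_adjoint, ContinuousLinearMap.adjoint_inner_left]
      rfl
    rw [h2, star_star, h2] at h1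
    exact h1
  · intro X hX h0
    obtain ⟨x, hx, rfl⟩ := mem_ampVNA.1 hX
    obtain ⟨hxM, hxg, -⟩ := (scalarCorner_spec hgp x).1 hx
    obtain ⟨c, hc⟩ := exists_scalar hgp hη hη1 hx
    have h1 : x * g = 0 := hT.faithful _ (mul_mem hxM hgM) (fun i => by
      have := congrArg (fun v : Amp (Option ι) H => v (some i)) h0
      simpa [traceVec_some] using this)
    have h2 : x * (1 - g) = 0 := by
      rcases hη1 with hh | hh
      · simp [hh]
      have h3 := congrArg (fun v : Amp (Option ι) H => v none) h0
      have h4 : (x * (1 - g)) η = 0 := by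
        rw [mul_apply_eq_comp, hη]
        simpa [traceVec_none] using h3
      rw [hc, smul_apply, hη, smul_eq_zero] at h4
      rcases h4 with h4 | h4
      · rw [hc, h4, zero_smul]
      · rw [h4, norm_zero] at hh; norm_num at hh
    have : x = 0 := by rw [← mul_one x, ← add_sub_cancel g 1, mul_add, h1, h2, add_zero]
    rw [this]
    exact map_zero (ampHom (J := Option ι) (H := H))

end core

/-- The finite tracial core: every contraction with vanishing expectation is `L²`-paved. -/
def Core.{v} (c : ℝ) (r : ℕ) : Prop :=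
  ∀ (K : Type v) [NormedAddCommGroup K] [InnerProductSpace ℂ K] [CompleteSpace K]
    (M' : VonNeumannAlgebra K) (A' : StarSubalgebra ℂ (K →L[ℂ] K)) (Ω : K)
    (h : FinSetting M' A' Ω), ∀ x ∈ M', IsSelfAdjoint x → ‖x‖ ≤ 1 → plim h.masa x = 0 →
      L2Paved M' A' Ω c r x

/-- The core, read inside a finite-trace corner. -/
lemma exists_finite_paving {c : ℝ} {r : ℕ} (core : Core.{u} c r) (hA : IsMASAIn M A)
    (hT : Trace M ξ) {g : H →L[ℂ] H} (hg : Good hA ξ g) {y : H →L[ℂ] H} (hy : y ∈ M)
    (hys : IsSelfAdjoint y) (hy1 : ‖y‖ ≤ 1) (hgy : g * y = y) (hyg : y * g = y)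
    (hy0 : plim hA y = 0) {η₀ : ℝ} (hη₀ : 0 < η₀) :
    ∃ f : Fin r → (H →L[ℂ] H), (∀ i, f i ∈ A ∧ IsStarProjection (f i)) ∧
      (∀ i j, i ≠ j → f i * f j = 0) ∧ ∑ i, f i = 1 ∧
      ∃ z ∈ M, ‖z‖ ≤ c ∧ ∀ l, ‖((∑ i, f i * y * f i) - z) (g (ξ l))‖ ≤ η₀ := by
  classical
  obtain ⟨η, hη, hη1⟩ : ∃ η, (1 - g) η = η ∧ (g = 1 ∨ ‖η‖ = 1) := by
    by_cases h1 : g = 1
    · exact ⟨0, map_zero _, Or.inl h1⟩
    obtain ⟨v, hv⟩ : ∃ v, (1 - g) v ≠ 0 := by
      by_contra! hcon
      exact h1 (sub_eq_zero.1 (ContinuousLinearMap.ext hcon)).symm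
    refine ⟨((‖(1 - g) v‖⁻¹ : ℝ) : ℂ) • (1 - g) v, ?_, Or.inr ?_⟩
    · rw [map_smul, proj_apply_apply hg.proj.one_sub]
    · rw [norm_smul, Complex.norm_real, norm_inv, norm_norm,
        inv_mul_cancel₀ (norm_ne_zero_iff.2 hv)]
  have h := finSetting hA hT hg hη hη1
  have hgp := hg.proj
  have hgg := hgp.isIdempotentElem.eq
  have hyN : y ∈ scalarCorner M g := mem_scalarCorner_of_below hgp hy hgy hyg
  set Ω := traceVec ξ g hg.fin η with hΩ
  have hsnd : ∀ (T : Amp (Option ι) H →L[ℂ] Amp (Option ι) H) (z : H →L[ℂ] H), amp z = T →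
      IsStarProjection T → IsStarProjection z := by
    rintro T z rfl hp
    refine ⟨amp_inj (J := Option ι) ?_, amp_inj (J := Option ι) ?_⟩
    · change (ampHom (J := Option ι) (H := H)) (z * z) = _
      rw [map_mul]
      exact hp.isIdempotentElem
    · rw [amp_star]
      exact hp.isSelfAdjoint
  -- the expectation of the amplified element vanishes
  have hplim : plim h.masa (amp y) = 0 := by
    obtain ⟨a, haA, haN, ha⟩ := mem_cornerMasa.1
      (plim_mem h.masa (mem_ampVNA.2 ⟨y, hyN, rfl⟩ : amp y ∈ _))
    have hzero : ∀ l, a (g (ξ l)) = 0 := by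
      intro l
      rcases subsingleton_or_nontrivial (H →L[ℂ] H) with hs | hs
      · rw [Subsingleton.elim a 0, zero_apply]
      have hconv : Tendsto (fun P : Part A => P.pinch y (g (ξ l))) (uf hA)
          (𝓝 (a (g (ξ l)))) := by
        rw [Metric.tendsto_nhds]
        intro ε hε
        obtain ⟨P0, hP0⟩ := tendsto_pinch h (mem_ampVNA.2 ⟨y, hyN, rfl⟩ : amp y ∈ _) (half_pos hε)
        choose fb hfA hfN hfe using fun j => mem_cornerMasa.1 (P0.mem j)
        have hfp : ∀ j, IsStarProjection (fb j) := fun j => hsnd _ _ (hfe j) (P0.proj j)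
        let P1 : Part A :=
          { n := P0.n
            e := fb
            mem := hfA
            proj := hfp
            orth := fun i j hij => amp_inj (J := Option ι) (by
              change (ampHom (J := Option ι) (H := H)) (fb i * fb j) = (ampHom (J := Option ι) (H := H)) 0
              rw [map_mul, map_zero, ampHom_apply, ampHom_apply, hfe, hfe, P0.orth i j hij])
            total := amp_inj (J := Option ι) (by
              change (ampHom (J := Option ι) (H := H)) (∑ j, fb j) = (ampHom (J := Option ι) (H := H)) 1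
              rw [map_sum, map_one, ← P0.total]
              exact Finset.sum_congr rfl (fun j _ => hfe j)) }
        filter_upwards [eventually_finer hA P1] with P hP
        have hgA := hg.mem
        have h1g : 1 - g ∈ A := sub_mem (one_mem A) hgA
        let e' : Fin (P.n + 1) → (H →L[ℂ] H) := Fin.snoc (fun j => g * P.e j) (1 - g)
        have he'A : ∀ j, e' j ∈ A := fun j => by
          induction j using Fin.lastCases with
          | last => simpa [e'] using h1g
          | cast j => simpa [e'] using mul_mem hgA (P.mem j)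
        have he'p : ∀ j, IsStarProjection (e' j) := fun j => by
          induction j using Fin.lastCases with
          | last => simpa [e'] using hgp.one_sub
          | cast j => simpa [e'] using hA.mul_proj hgp (P.proj j) hgA (P.mem j)
        have h1gg : (1 - g) * g = 0 := by rw [sub_mul, one_mul, hgg, sub_self]
        have hg1g : g * (1 - g) = 0 := by rw [mul_sub, mul_one, hgg, sub_self]
        have he'N : ∀ j, e' j ∈ scalarCorner M g := fun j => by
          induction j using Fin.lastCases with
          | last =>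
            have : e' (Fin.last P.n) = 1 - g := by simp [e']
            rw [this]
            exact sub_mem (one_mem _) (mem_scalarCorner_of_below hgp (hA.mem_M hgA) hgg hgg)
          | cast j =>
            have : e' j.castSucc = g * P.e j := by simp [e']
            rw [this]
            refine mem_scalarCorner_of_below hgp (hA.mem_M (mul_mem hgA (P.mem j))) ?_ ?_
            · rw [← mul_assoc, hgg]
            · rw [mul_assoc, hA.comm (P.mem j) hgA, ← mul_assoc, hgg]
        have htot : ∑ j, e' j = 1 := by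
          simp [e', Fin.sum_univ_castSucc, ← Finset.mul_sum, P.total]
        let P' : Part (cornerMasa (ι := ι) M A g) :=
          { n := P.n + 1
            e := fun j => amp (e' j)
            mem := fun j => mem_cornerMasa.2 ⟨_, he'A j, he'N j, rfl⟩
            proj := fun j => ⟨by
                change (ampHom (J := Option ι) (H := H)) (e' j) * (ampHom (J := Option ι) (H := H)) (e' j) = (ampHom (J := Option ι) (H := H)) (e' j)
                rw [← map_mul, (he'p j).isIdempotentElem.eq], by
                change star (amp (e' j)) = amp (e' j)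
                rw [← amp_star, (he'p j).isSelfAdjoint.star_eq]⟩
            orth := fun i j hij => by
              change (ampHom (J := Option ι) (H := H)) (e' i) * (ampHom (J := Option ι) (H := H)) (e' j) = 0
              rw [← map_mul]
              suffices e' i * e' j = 0 by rw [this, map_zero]
              induction i using Fin.lastCases with
              | last =>
                induction j using Fin.lastCases with
                | last => exact absurd rfl hij
                | cast j => simp [e', ← mul_assoc, h1gg]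
              | cast i =>
                induction j using Fin.lastCases with
                | last =>
                  simp only [e', Fin.snoc_castSucc, Fin.snoc_last]
                  rw [mul_assoc, hA.comm (P.mem i) h1g, ← mul_assoc, hg1g, zero_mul]
                | cast j =>
                  have hij' : i ≠ j := fun e => hij (by rw [e])
                  simp only [e', Fin.snoc_castSucc]
                  calc g * P.e i * (g * P.e j) = g * (P.e i * g) * P.e j := by
                        simp only [mul_assoc]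
                    _ = g * g * (P.e i * P.e j) := by
                        rw [hA.comm (P.mem i) hgA]; simp only [mul_assoc]
                    _ = 0 := by rw [P.orth i j hij', mul_zero]
            total := by
              change ∑ j, (ampHom (J := Option ι) (H := H)) (e' j) = 1
              rw [← map_sum, htot, map_one] }
        have hP' : P0 ≤ P' := by
          intro j
          induction j using Fin.lastCases with
          | cast j =>
            obtain ⟨i, hi⟩ := hP j
            refine ⟨i, ?_⟩
            change P0.e i * amp (e' j.castSucc) = amp (e' j.castSucc)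
            rw [← hfe]
            change (ampHom (J := Option ι) (H := H)) (fb i) * (ampHom (J := Option ι) (H := H)) (e' j.castSucc) = _
            rw [← map_mul, ampHom_apply]
            congr 1
            simp only [e', Fin.snoc_castSucc]
            have hi' : fb i * P.e j = P.e j := hi
            rw [← mul_assoc, hA.comm (hfA i) hgA, mul_assoc, hi']
          | last =>
            have hex : ∃ i, fb i * (1 - g) = 1 - g := by
              rcases hη1 with hh | hh
              · rcases Nat.eq_zero_or_pos P1.n with hn | hn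
                · exfalso
                  have ht := P1.total
                  rw [Finset.sum_eq_zero (fun i _ => absurd i.2 (by omega))] at ht
                  exact zero_ne_one ht
                · exact ⟨⟨0, hn⟩, by simp [hh]⟩
              · by_contra! hcon
                have h0 : ∀ i, fb i * (1 - g) = 0 := fun i => by
                  obtain ⟨cst, hcst⟩ := exists_scalar hgp hη (Or.inr hh) (hfN i)
                  have hsq : fb i * (1 - g) * (fb i * (1 - g)) = fb i * (1 - g) :=
                    (hA.mul_proj (hfp i) hgp.one_sub (hfA i) h1g).isIdempotentElem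
                  rw [hcst, smul_mul_smul_comm, hgp.one_sub.isIdempotentElem.eq] at hsq
                  have hne : (1 - g) ≠ 0 := fun e0 => by
                    rw [e0, zero_apply] at hη
                    rw [← hη, norm_zero] at hh
                    norm_num at hh
                  have hcc : cst * cst = cst := smul_left_injective ℂ hne hsq
                  rcases eq_or_ne cst 0 with h00 | h00
                  · rw [hcst, h00, zero_smul]
                  · exfalso
                    refine hcon i ?_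
                    rw [hcst, mul_left_cancel₀ h00 (hcc.trans (mul_one cst).symm), one_smul]
                have ht := congrArg (· * (1 - g)) P1.total
                simp only [Finset.sum_mul, one_mul] at ht
                rw [Finset.sum_eq_zero (fun i _ => h0 i)] at ht
                rw [← ht, zero_apply] at hη
                rw [← hη, norm_zero] at hh
                norm_num at hh
            obtain ⟨i, hi⟩ := hex
            refine ⟨i, ?_⟩
            change P0.e i * amp (e' (Fin.last P.n)) = amp (e' (Fin.last P.n))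
            rw [← hfe]
            change (ampHom (J := Option ι) (H := H)) (fb i) * (ampHom (J := Option ι) (H := H)) (e' (Fin.last P.n)) = _
            rw [← map_mul, ampHom_apply]
            congr 1
            simpa [e'] using hi
        have hpin : P'.pinch (amp y) = amp (P.pinch y) := by
          change ∑ j, (ampHom (J := Option ι) (H := H)) (e' j) * (ampHom (J := Option ι) (H := H)) y * (ampHom (J := Option ι) (H := H)) (e' j)
            = (ampHom (J := Option ι) (H := H)) (P.pinch y)
          simp only [← map_mul, ← map_sum]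
          congr 1
          rw [Fin.sum_univ_castSucc]
          simp only [e', Fin.snoc_castSucc, Fin.snoc_last]
          have e0 : (1 - g) * y = 0 := by rw [sub_mul, one_mul, hgy, sub_self]
          rw [e0, zero_mul, add_zero]
          refine Finset.sum_congr rfl (fun j _ => ?_)
          calc g * P.e j * y * (g * P.e j) = P.e j * (g * y * g) * P.e j := by
                rw [hA.comm hgA (P.mem j)]
                simp only [mul_assoc]
                rw [← hA.comm hgA (P.mem j)]
            _ = P.e j * y * P.e j := by rw [hgy, hyg]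
        have h3 := hP0 P' hP'
        rw [hpin, ← ha] at h3
        have h4 := lp.norm_apply_le_norm (p := 2) (by norm_num)
          ((amp (P.pinch y) - amp a : Amp (Option ι) H →L[ℂ] Amp (Option ι) H) Ω) (some l)
        rw [dist_eq_norm]
        refine lt_of_le_of_lt ?_ (half_lt_self hε)
        refine le_trans (le_of_eq ?_) (h4.trans h3)
        simp [hΩ, traceVec_some]
      have h6 : ∀ w, ⟪a (g (ξ l)), w⟫ = 0 := fun w =>
        tendsto_nhds_unique (hconv.inner tendsto_const_nhds) (by
          have := tendsto_plim hA y (g (ξ l)) w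
          rwa [hy0, zero_apply, inner_zero_left] at this)
      exact inner_self_eq_zero.1 (h6 _)
    have hag : a * g = 0 := hT.faithful _ (mul_mem (hA.mem_M haA) (hA.mem_M hg.mem)) hzero
    have hz : plim h.masa (amp y) = 0 := by
      refine h.faithful _ (h.masa.mem_M (plim_mem h.masa (mem_ampVNA.2 ⟨y, hyN, rfl⟩))) ?_
      rw [← ha]
      have ha1 : a η = 0 := by
        have h9 : plim h.masa (amp (1 - g) * amp y) = amp (1 - g) * plim h.masa (amp y) :=
          plim_mul_left h.masa (mem_cornerMasa.2 ⟨1 - g, sub_mem (one_mem A) hg.mem,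
            sub_mem (one_mem _) (mem_scalarCorner_of_below hgp (hA.mem_M hg.mem) hgg hgg), rfl⟩) _
        have e0 : (amp (1 - g) * amp y : Amp (Option ι) H →L[ℂ] Amp (Option ι) H) = 0 := by
          change (ampHom (J := Option ι) (H := H)) (1 - g) * (ampHom (J := Option ι) (H := H)) y = 0
          rw [← map_mul, sub_mul, one_mul, hgy, sub_self, map_zero]
        rw [e0, plim_of_mem h.masa (zero_mem _), ← ha] at h9
        have h10 : (1 - g) * a = 0 := amp_inj (J := Option ι) (by
          change (ampHom (J := Option ι) (H := H)) ((1 - g) * a) = (ampHom (J := Option ι) (H := H)) 0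
          rw [map_mul, map_zero]
          exact h9.symm)
        have h11 : a * (1 - g) = 0 := by rw [hA.comm haA (sub_mem (one_mem A) hg.mem), h10]
        rw [← hη, ← mul_apply_eq_comp, h11, zero_apply]
      refine lp.ext (funext fun o => ?_)
      cases o with
      | none => simpa [hΩ, traceVec_none] using ha1
      | some i => simpa [hΩ, traceVec_some] using hzero i
    exact hz
  have hampn : ‖(amp y : Amp (Option ι) H →L[ℂ] Amp (Option ι) H)‖ ≤ 1 := by rwa [amp_norm]
  have hamps : IsSelfAdjoint (amp y : Amp (Option ι) H →L[ℂ] Amp (Option ι) H) := by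
    change star _ = _
    rw [← amp_star, hys.star_eq]
  obtain ⟨p, hp, hpo, hps, z, hz, -, hzc, hW⟩ :=
    core _ _ _ _ h (amp y) (mem_ampVNA.2 ⟨y, hyN, rfl⟩) hamps hampn hplim η₀ hη₀
  choose f hfA hfN hfe using fun i => mem_cornerMasa.1 (hp i).1
  obtain ⟨z0, hz0N, hz0⟩ := mem_ampVNA.1 hz
  refine ⟨f, fun i => ⟨hfA i, hsnd _ _ (hfe i) (hp i).2⟩, fun i j hij => amp_inj (J := Option ι) ?_,
    amp_inj (J := Option ι) ?_, z0, ((scalarCorner_spec hgp z0).1 hz0N).1, ?_, fun l => ?_⟩
  · change (ampHom (J := Option ι) (H := H)) (f i * f j) = (ampHom (J := Option ι) (H := H)) 0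
    rw [map_mul, map_zero, ampHom_apply, ampHom_apply, hfe, hfe, hpo i j hij]
  · change (ampHom (J := Option ι) (H := H)) (∑ i, f i) = (ampHom (J := Option ι) (H := H)) 1
    rw [map_sum, map_one, ← hps]
    exact Finset.sum_congr rfl (fun i _ => hfe i)
  · rw [← amp_norm (J := Option ι) z0, hz0]; exact hzc
  · have e : ((∑ i, p i * amp y * p i) - z : Amp (Option ι) H →L[ℂ] Amp (Option ι) H)
        = amp ((∑ i, f i * y * f i) - z0) := by
      simp only [← hfe, ← hz0, ← ampHom_apply, ← map_mul, ← map_sum, ← map_sub]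
    rw [e] at hW
    refine le_trans (le_of_eq ?_) ((lp.norm_apply_le_norm (p := 2) (by norm_num) _ (some l)).trans hW)
    rw [amp_apply, hΩ, traceVec_some]

/-- Projections in `M` that nearly kill the trace vectors below `g` nearly kill `g v`. -/
lemma exists_bound_below (hT : Trace M ξ) {g : H →L[ℂ] H} (hgp : IsStarProjection g) (hgM : g ∈ M)
    (v : H) {ρ : ℝ} (hρ : 0 < ρ) :
    ∃ C : ℝ, 0 ≤ C ∧ ∀ (D : H →L[ℂ] H) (β : ℝ), D ∈ M → ‖D‖ ≤ 1 →
      (∀ i, ‖D (g (ξ i))‖ ≤ β) → 0 ≤ β → ‖D (g v)‖ ≤ ρ + C * β := by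
  have _ := hgp
  -- approximate the vectors of `F` by commutant translates of the trace vectors
  let V : Submodule ℂ H := Submodule.span ℂ
    {w | ∃ m ∈ Set.centralizer (M : Set (H →L[ℂ] H)), ∃ i, w = m (g (ξ i))}
  have hgV : ∀ w, g w ∈ V.topologicalClosure := by
    have : CompleteSpace V.topologicalClosure := Submodule.topologicalClosure.completeSpace _
    have hinv : ∀ m ∈ Set.centralizer (M : Set (H →L[ℂ] H)), ∀ w ∈ V.topologicalClosure,
        m w ∈ V.topologicalClosure := by
      intro m hm w hw
      refine Submodule.topologicalClosure_minimal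
        (t := Submodule.comap (m : H →ₗ[ℂ] H) V.topologicalClosure) _ ?_
        ((Submodule.isClosed_topologicalClosure _).preimage m.continuous) hw
      rw [Submodule.span_le]
      rintro _ ⟨m', hm', i, rfl⟩
      exact Submodule.le_topologicalClosure _
        (Submodule.subset_span ⟨m * m', Set.mul_mem_centralizer hm hm', i, rfl⟩)
    have hQM : V.topologicalClosure.starProjection ∈ M := mem_vna_of_commute (fun m hm =>
      starProjection_commute _ m (hinv m hm) (hinv _ (mem_commutant_star hm)))
    have h0 : (1 - V.topologicalClosure.starProjection) * g = 0 := by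
      refine hT.faithful _ (mul_mem (sub_mem (one_mem M) hQM) hgM) (fun i => ?_)
      rw [mul_apply_eq_comp, sub_apply, one_apply_eq_self, sub_eq_zero]
      exact (Submodule.starProjection_eq_self_iff.2 (Submodule.le_topologicalClosure _
        (show g (ξ i) ∈ V from
          Submodule.subset_span ⟨1, Set.one_mem_centralizer, i, rfl⟩))).symm
    intro w
    have h1 := DFunLike.congr_fun h0 w
    rw [mul_apply_eq_comp, sub_apply, one_apply_eq_self, zero_apply, sub_eq_zero] at h1
    rw [h1]
    exact V.topologicalClosure.starProjection_apply_mem _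
  obtain ⟨w, hwV, hwd⟩ := Metric.mem_closure_iff.1 (hgV v) ρ hρ
  rw [dist_eq_norm] at hwd
  -- a bound for the effect of a projection below `g` on elements of `V`
  have hbd : ∀ w ∈ V, ∃ C : ℝ, 0 ≤ C ∧ ∀ (D : H →L[ℂ] H) (β : ℝ), D ∈ M →
      (∀ i, ‖D (g (ξ i))‖ ≤ β) → 0 ≤ β → ‖D w‖ ≤ C * β := by
    intro w hw
    induction hw using Submodule.span_induction with
    | mem w hw =>
      obtain ⟨m, hm, i, rfl⟩ := hw
      refine ⟨‖m‖, norm_nonneg _, fun D β hD hβ _ => ?_⟩
      rw [← mul_apply_eq_comp D m, ← commute_of_mem_centralizer hD hm, mul_apply_eq_comp]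
      exact (m.le_opNorm _).trans (mul_le_mul_of_nonneg_left (hβ i) (norm_nonneg _))
    | zero => exact ⟨0, le_rfl, fun D β _ _ _ => by simp⟩
    | add a b _ _ ha hb =>
      obtain ⟨C, hC, hCa⟩ := ha
      obtain ⟨C', hC', hCb⟩ := hb
      refine ⟨C + C', add_nonneg hC hC', fun D β hD hβ hβ0 => ?_⟩
      rw [map_add, add_mul]
      exact (norm_add_le _ _).trans (add_le_add (hCa D β hD hβ hβ0) (hCb D β hD hβ hβ0))
    | smul k a _ ha =>
      obtain ⟨C, hC, hCa⟩ := ha
      refine ⟨‖k‖ * C, by positivity, fun D β hD hβ hβ0 => ?_⟩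
      rw [map_smul, norm_smul, mul_assoc]
      exact mul_le_mul_of_nonneg_left (hCa D β hD hβ hβ0) (norm_nonneg _)
  obtain ⟨C, hC, hCw⟩ := hbd w hwV
  refine ⟨C, hC, fun D β hD hD1 hβ hβ0 => ?_⟩
  have h1 : D (g v) = D (g v - w) + D w := by rw [← map_add, sub_add_cancel]
  rw [h1]
  refine (norm_add_le _ _).trans (add_le_add ?_ (hCw D β hD hβ hβ0))
  exact ((D.le_opNorm _).trans (mul_le_of_le_one_left (norm_nonneg _) hD1)).trans hwd.le

/-- The norm estimate in the corner. -/
lemma norm_block_le (hA : IsMASAIn M A) {e g x : H →L[ℂ] H} (heA : e ∈ A) (he : IsStarProjection e)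
    (hgA : g ∈ A) (hgp : IsStarProjection g) (hge : g * e = g) (hxe : e * x = x * e) {r : ℕ}
    {f : Fin r → (H →L[ℂ] H)} (hf : ∀ i, f i ∈ A ∧ IsStarProjection (f i)) (hfs : ∑ i, f i = 1)
    {q' q a1 a0 y z W : H →L[ℂ] H} (hq' : IsStarProjection q') (hgq' : g * q' = q')
    (hq'g : q' * g = q') (heq' : e * q' = q') (hq'e : q' * e = q') (hqdef : q = q' + (1 - e))
    (ha1A : a1 ∈ A) (ha1g : a1 * g = a1) (hga1 : g * a1 = a1)
    (hy : y = ((1 / (2 * ‖x‖) : ℝ) : ℂ) • (g * x * g - a1))
    (ha0 : a0 = x * (1 - e)) (ha0A : a0 ∈ A) (hX : 0 < ‖x‖)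
    (hW : W = (∑ i, f i * y * f i) - z) {γ c : ℝ} (hWq' : ‖W * q'‖ ≤ γ) (hzc : ‖z‖ ≤ c) :
    ‖q * ((∑ i, f i * x * f i) - (a1 + a0)) * q‖ ≤ 2 * ‖x‖ * (γ + c) := by
  have heg : e * g = g := (hA.comm heA hgA).trans hge
  have hgg := hgp.isIdempotentElem.eq
  have hee := he.isIdempotentElem.eq
  have h1e : e * (1 - e) = 0 := by rw [mul_sub, mul_one, hee, sub_self]
  have h1e' : (1 - e) * e = 0 := by rw [sub_mul, one_mul, hee, sub_self]
  have hea1 : e * a1 = a1 := by rw [← hga1, ← mul_assoc, heg]
  have ha1e : a1 * e = a1 := by rw [← ha1g, mul_assoc, hge]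
  have hq1 : q * e = q' := by rw [hqdef, add_mul, hq'e, h1e', add_zero]
  have heq : e * q = q' := by rw [hqdef, mul_add, heq', h1e, add_zero]
  have hS : ∀ a ∈ A, ∑ i, f i * a * f i = a := fun a ha => by
    calc ∑ i, f i * a * f i = ∑ i, a * f i := by
          refine Finset.sum_congr rfl (fun i _ => ?_)
          rw [hA.comm (hf i).1 ha, mul_assoc, (hf i).2.isIdempotentElem.eq]
      _ = a := by rw [← Finset.mul_sum, hfs, mul_one]
  have hxx : x = x * e + a0 := by rw [ha0, ← mul_add, add_sub_cancel, mul_one]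
  set D := (∑ i, f i * (x * e) * f i) - a1 with hDdef
  have hD : (∑ i, f i * x * f i) - (a1 + a0) = D := by
    have e1 : ∀ i, f i * x * f i = f i * (x * e) * f i + f i * a0 * f i := fun i => by
      rw [← add_mul, ← mul_add, ← hxx]
    simp only [e1, Finset.sum_add_distrib, hS a0 ha0A, hDdef]
    abel
  have hDe : D * e = D := by
    rw [hDdef, sub_mul, ha1e, Finset.sum_mul]
    congr 1
    refine Finset.sum_congr rfl (fun i _ => ?_)
    calc f i * (x * e) * f i * e = f i * (x * e) * (e * f i) := by
          rw [mul_assoc, hA.comm (hf i).1 heA]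
      _ = f i * (x * (e * e)) * f i := by simp only [mul_assoc]
      _ = _ := by rw [hee]
  have heD : e * D = D := by
    rw [hDdef, mul_sub, hea1, Finset.mul_sum]
    congr 1
    refine Finset.sum_congr rfl (fun i _ => ?_)
    calc e * (f i * (x * e) * f i) = (e * f i) * (x * e) * f i := by simp only [mul_assoc]
      _ = f i * ((e * x) * e) * f i := by rw [hA.comm heA (hf i).1]; simp only [mul_assoc]
      _ = f i * (x * (e * e)) * f i := by rw [hxe]; simp only [mul_assoc]
      _ = _ := by rw [hee]
  have hqD : q * D * q = q' * D * q' := by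
    calc q * D * q = q * (e * D * e) * q := by rw [heD, hDe]
      _ = (q * e) * D * (e * q) := by simp only [mul_assoc]
      _ = _ := by rw [hq1, heq]
  have hgD : g * D * g = ∑ i, f i * (g * x * g - a1) * f i := by
    simp only [hDdef, mul_sub, sub_mul, Finset.sum_sub_distrib, hS a1 ha1A, hga1, ha1g]
    congr 1
    rw [Finset.mul_sum, Finset.sum_mul]
    refine Finset.sum_congr rfl (fun i _ => ?_)
    calc g * (f i * (x * e) * f i) * g = (g * f i) * (x * e) * (f i * g) := by
          simp only [mul_assoc]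
      _ = (f i * g) * (x * e) * (g * f i) := by rw [hA.comm hgA (hf i).1]
      _ = f i * (g * x * (e * g)) * f i := by simp only [mul_assoc]
      _ = _ := by rw [heg]
  have hgD' : g * D * g = (2 * ‖x‖) • (∑ i, f i * y * f i) := by
    rw [hgD, hy]
    simp only [mul_smul_comm, smul_mul_assoc, ← Finset.smul_sum]
    rw [← Complex.coe_smul, smul_smul, ← Complex.ofReal_mul,
      mul_one_div_cancel (by positivity), Complex.ofReal_one, one_smul]
  have hfin : q' * D * q' = (2 * ‖x‖) • (q' * (W * q') + q' * z * q') := by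
    have e0 : q' * D * q' = q' * (g * D * g) * q' := by
      calc q' * D * q' = (q' * g) * D * (g * q') := by rw [hq'g, hgq']
        _ = _ := by simp only [mul_assoc]
    rw [e0, hgD', mul_smul_comm, smul_mul_assoc, hW]
    congr 1
    simp only [sub_mul, mul_sub, mul_assoc]
    abel
  rw [hD, hqD, hfin, norm_smul, Real.norm_of_nonneg (by positivity)]
  refine mul_le_mul_of_nonneg_left ((norm_add_le _ _).trans (add_le_add ?_ ?_)) (by positivity)
  · refine (norm_mul_le _ _).trans ?_
    exact (mul_le_mul hq'.norm_le hWq' (norm_nonneg _) zero_le_one).trans_eq (one_mul _)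
  · exact (conj_norm_le hq' hq' z).trans hzc

/-- **From the finite tracial core to every semifinite algebra.** -/
theorem allPavable_of_core {c : ℝ} {r : ℕ}
    (core : ∀ (K : Type u) [NormedAddCommGroup K] [InnerProductSpace ℂ K] [CompleteSpace K]
      (M' : VonNeumannAlgebra K) (A' : StarSubalgebra ℂ (K →L[ℂ] K)) (Ω : K)
      (h : FinSetting M' A' Ω), ∀ x ∈ M', IsSelfAdjoint x → ‖x‖ ≤ 1 → plim h.masa x = 0 →
        L2Paved M' A' Ω c r x)
    (hM : IsSemifinite M) (hA : IsMASAIn M A) {ε : ℝ} (_hc : 0 ≤ c) (hr : 0 < r)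
    (hε : max (2 * c) (1 / (r : ℝ)) + 1 / (r : ℝ) < ε) : AllPavable M A ε r := by
  classical
  obtain ⟨ι, ξ, htr, hfaith, hsemi⟩ := hM
  have hT : Trace M ξ := ⟨htr, hfaith, hsemi⟩
  have : NeZero r := ⟨hr.ne'⟩
  set s := (ε - (max (2 * c) (1 / (r : ℝ)) + 1 / (r : ℝ))) / 2 with hs
  have hs0 : 0 < s := by rw [hs]; linarith
  have hr1 : max (2 * c + s) (1 / (r : ℝ)) + 1 / (r : ℝ) < ε := by
    have h1 : max (2 * c + s) (1 / (r : ℝ)) ≤ max (2 * c) (1 / (r : ℝ)) + s :=
      max_le (by linarith [le_max_left (2 * c) (1 / (r : ℝ))])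
        (by linarith [le_max_right (2 * c) (1 / (r : ℝ))])
    rw [hs] at *
    linarith
  refine allPavable_of_corner hA ?_ hr1
  set e := eProj hA with he'
  have he : IsStarProjection e := eProj_proj hA
  have heA : e ∈ A := eProj_mem hA
  intro x hx hxs F δ hδ
  obtain ⟨hxM, hxe, -⟩ := (corner_spec hA he heA x).1 hx
  rcases eq_or_ne x 0 with rfl | hx0
  · refine ⟨fun i => if i = 0 then 1 else 0, fun i => ?_, fun i j hij => ?_, by simp, 0, zero_mem A,
      IsSelfAdjoint.zero _, by simp, 1, one_mem _, IsStarProjection.one _, fun v _ => by simpa using hδ,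
      by simp⟩
    · dsimp only
      split_ifs
      · exact ⟨one_mem A, IsStarProjection.one _⟩
      · exact ⟨zero_mem A, IsStarProjection.zero _⟩
    · dsimp only
      split_ifs <;> simp_all
  have hX : 0 < ‖x‖ := norm_pos_iff.2 hx0
  obtain ⟨g, hg, hgF⟩ := exists_finite_below (hA := hA) hT F (half_pos hδ)
  have hgp := hg.proj
  have hgg := hgp.isIdempotentElem.eq
  have hgA := hg.mem
  have hgM := hA.mem_M hgA
  have heg : e * g = g := (hA.comm heA hgA).trans hg.le
  set v0 := g * x * g with hv0
  set a1 := plim hA v0 with ha1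
  have hv0M : v0 ∈ M := mul_mem (mul_mem hgM hxM) hgM
  have ha1A : a1 ∈ A := plim_mem hA hv0M
  have hv0g : v0 * g = v0 := by rw [hv0, mul_assoc, hgg]
  have hgv0 : g * v0 = v0 := by rw [hv0, ← mul_assoc, ← mul_assoc, hgg]
  have ha1g : a1 * g = a1 := by rw [ha1, ← plim_mul_right hA hgA, hv0g]
  have hga1 : g * a1 = a1 := by rw [ha1, ← plim_mul_left hA hgA, hgv0]
  have hv0s : IsSelfAdjoint v0 := by simpa [hgp.isSelfAdjoint.star_eq] using hxs.conjugate g
  have ha1s : IsSelfAdjoint a1 := plim_isSelfAdjoint hA hv0s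
  have hv0n : ‖v0‖ ≤ ‖x‖ := conj_norm_le hgp hgp x
  have ha1n : ‖a1‖ ≤ ‖x‖ := (plim_norm_le hA v0).trans hv0n
  set t : ℝ := 1 / (2 * ‖x‖) with ht
  set y : H →L[ℂ] H := (t : ℂ) • (v0 - a1) with hy
  have hyM : y ∈ M := smul_mem_vna _ (sub_mem hv0M (hA.mem_M ha1A))
  have hys : IsSelfAdjoint y := by
    rw [hy, Complex.coe_smul]; exact (IsSelfAdjoint.all t).smul (hv0s.sub ha1s)
  have hy1 : ‖y‖ ≤ 1 := by
    rw [hy, norm_smul, Complex.norm_real, Real.norm_of_nonneg (by positivity), ht, one_div,
      inv_mul_le_iff₀ (by positivity), mul_one]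
    linarith [norm_sub_le v0 a1]
  have hgy : g * y = y := by rw [hy, mul_smul_comm, mul_sub, hgv0, hga1]
  have hyg : y * g = y := by rw [hy, smul_mul_assoc, sub_mul, hv0g, ha1g]
  have hy0 : plim hA y = 0 := by
    rw [hy, plim_smul, sub_eq_add_neg, ← neg_one_smul ℂ a1, plim_add, plim_smul,
      plim_of_mem hA ha1A, ← ha1, neg_one_smul, add_neg_cancel, smul_zero]
  choose C hC0 hCw using fun v : {v // v ∈ F} => exists_bound_below hT hgp hgM v.1 (show 0 < δ / 4 by positivity)
  set γ : ℝ := s / 2 with hγ
  have hγ0 : 0 < γ := half_pos hs0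
  set T : ℝ := (∑ v, C v) + 1 with hTdef
  have hT0 : 0 < T := by
    have : 0 ≤ ∑ v, C v := Finset.sum_nonneg (fun v _ => hC0 v)
    linarith
  set η₀ : ℝ := γ * (δ / 8 / T) with hη₀
  have hη₀0 : 0 < η₀ := by positivity
  obtain ⟨f, hf, hfo, hfs, z, hzM, hzc, hW⟩ :=
    exists_finite_paving core hA hT hg hyM hys hy1 hgy hyg hy0 hη₀0
  set W := (∑ i, f i * y * f i) - z with hWdef
  have hWM : W ∈ M := sub_mem (sum_mem (fun i _ =>
    mul_mem (mul_mem (hA.mem_M (hf i).1) hyM) (hA.mem_M (hf i).1))) hzM
  obtain ⟨q', hq', hq'M, hgq', hWq', hlow⟩ := exists_small_subproj hgp hgM hWM hγ0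
  have hq'g : q' * g = q' := by
    have := congrArg star hgq'
    rwa [star_mul, hgp.isSelfAdjoint.star_eq, hq'.isSelfAdjoint.star_eq] at this
  have heq' : e * q' = q' := by rw [← hgq', ← mul_assoc, heg]
  have hq'e : q' * e = q' := by rw [← hq'g, mul_assoc, hg.le]
  have hsmall : ∀ i, ‖(g - q') (g (ξ i))‖ ≤ η₀ / γ := fun i => by
    rw [le_div_iff₀ hγ0, mul_comm]
    refine (hlow (g (ξ i))).trans ?_
    rw [proj_apply_apply hgp]
    exact hW i
  have h1e : e * (1 - e) = 0 := by rw [mul_sub, mul_one, he.isIdempotentElem.eq, sub_self]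
  have h1e' : (1 - e) * e = 0 := by rw [sub_mul, one_mul, he.isIdempotentElem.eq, sub_self]
  set q := q' + (1 - e) with hqdef
  have hq : IsStarProjection q :=
    hq'.add he.one_sub (by rw [← hq'e, mul_assoc, h1e, mul_zero])
  have hqC : q ∈ corner M A e := by
    refine (corner_spec hA he heA q).2 ⟨add_mem hq'M (sub_mem (one_mem M) (hA.mem_M heA)), ?_,
      fun a ha => ?_⟩
    · rw [hqdef, mul_add, add_mul, heq', hq'e, h1e, h1e']
    · have hea : e * a = a * e := ha e heA
      have h2 : (1 - e) * a = a * (1 - e) := by rw [sub_mul, one_mul, hea, mul_sub, mul_one]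
      have l : a * (1 - e) * q' = 0 := by rw [mul_assoc, ← heq', ← mul_assoc (1 - e), h1e', zero_mul, mul_zero]
      have rr : q' * (a * (1 - e)) = 0 := by
        rw [← hq'e, mul_assoc, ← mul_assoc e, hea, mul_assoc a e, h1e, mul_zero, mul_zero]
      rw [hqdef, mul_add, add_mul, l, rr, zero_add, zero_add, ← mul_assoc (1 - e), h2]
  set a0 := x * (1 - e) with ha0
  have ha0A : a0 ∈ A := mul_one_sub_mem hA he heA hx
  have hxe' : (1 - e) * x = x * (1 - e) := by rw [sub_mul, one_mul, hxe, mul_sub, mul_one]
  have ha0s : IsSelfAdjoint a0 := by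
    change star a0 = a0
    rw [ha0, star_mul, he.one_sub.isSelfAdjoint.star_eq, hxs.star_eq, hxe']
  have hea1 : e * a1 = a1 := by rw [← hga1, ← mul_assoc, heg]
  have ha1e : a1 * e = a1 := by rw [← ha1g, mul_assoc, hg.le]
  refine ⟨f, hf, hfo, hfs, a1 + a0, add_mem ha1A ha0A, ha1s.add ha0s, ?_, q, hqC, hq,
    fun v hv => ?_, ?_⟩
  · refine ContinuousLinearMap.opNorm_le_bound _ hX.le (fun u => ?_)
    refine (sq_le_sq₀ (norm_nonneg _) (by positivity)).1 ?_
    have horth : ⟪a1 u, a0 u⟫ = 0 := by
      conv_lhs => rw [← hea1, mul_apply_eq_comp, sa_inner he.isSelfAdjoint, ← mul_apply_eq_comp]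
      rw [ha0, ← hxe', ← mul_assoc, h1e, zero_mul, zero_apply, inner_zero_right]
    have e1 : ‖a1 u‖ ≤ ‖x‖ * ‖e u‖ := by
      conv_lhs => rw [← ha1e, mul_apply_eq_comp]
      exact (a1.le_opNorm _).trans (mul_le_mul_of_nonneg_right ha1n (norm_nonneg _))
    have e2 : ‖a0 u‖ ≤ ‖x‖ * ‖(1 - e) u‖ := by
      rw [ha0, mul_apply_eq_comp]
      exact x.le_opNorm _
    have e3 : ‖u‖ ^ 2 = ‖e u‖ ^ 2 + ‖(1 - e) u‖ ^ 2 := by
      have : ⟪e u, (1 - e) u⟫ = 0 := by
        rw [sa_inner he.isSelfAdjoint, ← mul_apply_eq_comp, h1e, zero_apply, inner_zero_right]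
      calc ‖u‖ ^ 2 = ‖e u + (1 - e) u‖ ^ 2 := by
            rw [← add_apply, add_sub_cancel, one_apply_eq_self]
        _ = _ := by rw [norm_add_sq (𝕜 := ℂ), this]; simp
    rw [add_apply, norm_add_sq (𝕜 := ℂ), horth, mul_pow, e3]
    simp only [map_zero, mul_zero, add_zero, mul_add, ← mul_pow]
    exact add_le_add (pow_le_pow_left₀ (norm_nonneg _) e1 2) (pow_le_pow_left₀ (norm_nonneg _) e2 2)
  · have e1 : (1 - q) v = (e - g) v + (g - q') v := by
      simp only [hqdef, sub_apply, add_apply, one_apply_eq_self]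
      abel
    have e2 : (g - q') v = (g - q') (g v) := by
      rw [← mul_apply_eq_comp, sub_mul, hgg, hq'g]
    have hproj : IsStarProjection (g - q') := hq'.sub_of_mul_eq_left hgp hq'g
    have e4 : C ⟨v, hv⟩ ≤ T := by
      have := Finset.single_le_sum (f := C) (fun v _ => hC0 v) (Finset.mem_univ ⟨v, hv⟩)
      linarith
    have e3 := hCw ⟨v, hv⟩ (g - q') (η₀ / γ) (sub_mem hgM hq'M) hproj.norm_le hsmall (by positivity)
    have e5 : C ⟨v, hv⟩ * (η₀ / γ) ≤ δ / 8 := by
      refine (mul_le_mul_of_nonneg_right e4 (by positivity)).trans (le_of_eq ?_)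
      rw [hη₀]
      field_simp
    rw [e1, e2]
    refine (norm_add_le _ _).trans_lt ?_
    linarith [hgF v hv]
  · -- the norm estimate
    have hW' : W = (∑ i, f i * y * f i) - z := hWdef
    refine (norm_block_le hA heA he hgA hgp hg.le hxe (f := f) hf hfs hq' hgq' hq'g heq' hq'e hqdef
      ha1A ha1g hga1 hy (rfl : a0 = x * (1 - e)) ha0A hX hW' hWq' hzc).trans (le_of_eq ?_)
    rw [hγ]; ring

end Vale.Agent.P078.Semifinite
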